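import Vale.Agent.P208.H257.Gauss
import Mathlib.Probability.Moments.Variance
import Mathlib.Algebra.Order.Chebyshev
import Mathlib.Analysis.Real.Pi.Bounds

/-!
# P208: variance of functions with bounded subgradients under the standard Gaussian law
-/

namespace Vale.Agent.P208.D257

open MeasureTheory ProbabilityTheory Module
open scoped RealInnerProductSpace

variable {E : Type*} [NormedAddCommGroup E] [InnerProductSpace ℝ E]

/-- subgradients of norm `≤ 1` everywhere -/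
def Sub1 (f : E → ℝ) : Prop := ∀ x, ∃ ξ : E, ‖ξ‖ ≤ 1 ∧ ∀ y, f x + ⟪ξ, y - x⟫ ≤ f y

theorem Sub1.sub_le {f : E → ℝ} (hf : Sub1 f) (x y : E) : f x - f y ≤ ‖x - y‖ := by
  obtain ⟨ξ, h1, h2⟩ := hf x
  have h3 := h2 y
  have h4 := abs_real_inner_le_norm ξ (y - x)
  have h5 : ‖ξ‖ * ‖y - x‖ ≤ 1 * ‖y - x‖ := by gcongr
  have h6 := neg_abs_le ⟪ξ, y - x⟫
  rw [norm_sub_rev y x] at h4 h5
  linarith

theorem Sub1.abs_sub_le {f : E → ℝ} (hf : Sub1 f) (x y : E) : |f x - f y| ≤ ‖x - y‖ := by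
  rw [abs_le]
  have h1 := hf.sub_le x y
  have h2 := hf.sub_le y x
  rw [norm_sub_rev] at h2
  constructor <;> linarith

theorem Sub1.continuous {f : E → ℝ} (hf : Sub1 f) : Continuous f := by
  refine (LipschitzWith.of_dist_le_mul (K := 1) fun x y => ?_).continuous
  rw [Real.dist_eq, dist_eq_norm, NNReal.coe_one, one_mul]
  exact hf.abs_sub_le x y

variable [FiniteDimensional ℝ E] [MeasurableSpace E] [BorelSpace E]

theorem integrable_prod_normsq :
    Integrable (fun p : E × E => ‖p‖ ^ 2) ((stdGaussian E).prod (stdGaussian E)) := by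
  have h1 : Integrable (fun p : E × E => ‖p.1‖ ^ 2 + ‖p.2‖ ^ 2)
      ((stdGaussian E).prod (stdGaussian E)) :=
    (integrable_normsq.comp_fst _).add (integrable_normsq.comp_snd _)
  refine h1.mono' (by fun_prop) (Filter.Eventually.of_forall fun p => ?_)
  rw [Real.norm_of_nonneg (sq_nonneg _), Prod.norm_def]
  rcases max_choice ‖p.1‖ ‖p.2‖ with h | h <;> rw [h] <;> nlinarith [sq_nonneg ‖p.1‖, sq_nonneg ‖p.2‖]

theorem Sub1.integrable {f : E → ℝ} (hf : Sub1 f) (A B : E × E →L[ℝ] E) :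
    Integrable (fun p => (f (A p) - f (B p)) ^ 2) ((stdGaussian E).prod (stdGaussian E)) := by
  have hc := hf.continuous
  refine (integrable_prod_normsq.const_mul (‖A - B‖ ^ 2)).mono' ?_
    (Filter.Eventually.of_forall fun p => ?_)
  · exact Continuous.aestronglyMeasurable (by fun_prop)
  · rw [Real.norm_of_nonneg (sq_nonneg _), ← sq_abs, ← mul_pow]
    have h1 := hf.abs_sub_le (A p) (B p)
    have h2 := (A - B).le_opNorm p
    rw [ContinuousLinearMap.sub_apply] at h2
    gcongr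
    exact h1.trans h2

/-- the map `(x, y) ↦ c x + s y` -/
noncomputable def cmb (E : Type*) [NormedAddCommGroup E] [InnerProductSpace ℝ E] (c s : ℝ) :
    E × E →L[ℝ] E :=
  c • ContinuousLinearMap.fst ℝ E E + s • ContinuousLinearMap.snd ℝ E E

omit [FiniteDimensional ℝ E] [MeasurableSpace E] [BorelSpace E] in
@[simp] theorem cmb_apply (c s : ℝ) (p : E × E) : cmb E c s p = c • p.1 + s • p.2 := by
  simp [cmb]

theorem Sub1.integrable_cmb {f : E → ℝ} (hf : Sub1 f) (a b c d : ℝ) :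
    Integrable (fun p : E × E => (f (a • p.1 + b • p.2) - f (c • p.1 + d • p.2)) ^ 2)
      ((stdGaussian E).prod (stdGaussian E)) := by
  simpa using hf.integrable (cmb E a b) (cmb E c d)

theorem Sub1.integrable_one {f : E → ℝ} (hf : Sub1 f) (c s : ℝ) :
    Integrable (fun p : E × E => (f p.1 - f (c • p.1 + s • p.2)) ^ 2)
      ((stdGaussian E).prod (stdGaussian E)) := by
  simpa using hf.integrable (cmb E 1 0) (cmb E c s)

theorem max_sq_le (a : ℝ) : (max a 0) ^ 2 ≤ a ^ 2 := by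
  rcases le_total a 0 with h | h
  · rw [max_eq_right h]; nlinarith
  · rw [max_eq_left h]

theorem sq_eq_max (a : ℝ) : a ^ 2 = (max a 0) ^ 2 + (max (-a) 0) ^ 2 := by
  rcases le_total a 0 with h | h
  · rw [max_eq_right h, max_eq_left (by linarith)]; ring
  · rw [max_eq_left h, max_eq_right (by linarith)]; ring

theorem Sub1.half {f : E → ℝ} (hf : Sub1 f) (c s : ℝ) :
    ∫ p : E × E, (max (f p.1 - f (c • p.1 + s • p.2)) 0) ^ 2
      ∂((stdGaussian E).prod (stdGaussian E)) ≤ (1 - c) ^ 2 * finrank ℝ E + s ^ 2 := by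
  have hc := hf.continuous
  have hint : Integrable (fun p : E × E => (max (f p.1 - f (c • p.1 + s • p.2)) 0) ^ 2)
      ((stdGaussian E).prod (stdGaussian E)) := by
    refine (hf.integrable_one c s).mono' (Continuous.aestronglyMeasurable (by fun_prop))
      (Filter.Eventually.of_forall fun p => ?_)
    rw [Real.norm_of_nonneg (sq_nonneg _)]
    exact max_sq_le _
  rw [integral_prod _ hint]
  have key : ∀ x : E, ∫ y, (max (f x - f (c • x + s • y)) 0) ^ 2 ∂(stdGaussian E) ≤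
      (1 - c) ^ 2 * ‖x‖ ^ 2 + s ^ 2 := by
    intro x
    obtain ⟨ξ, h1, h2⟩ := hf x
    have hpt : ∀ y : E, (max (f x - f (c • x + s • y)) 0) ^ 2 ≤
        (1 - c) ^ 2 * ⟪ξ, x⟫ ^ 2 + (-(2 * (1 - c) * s * ⟪ξ, x⟫)) * ⟪ξ, y⟫ + s ^ 2 * ⟪ξ, y⟫ ^ 2 := by
      intro y
      have h3 := h2 (c • x + s • y)
      have h4 : ⟪ξ, c • x + s • y - x⟫ = -((1 - c) * ⟪ξ, x⟫ - s * ⟪ξ, y⟫) := by
        rw [inner_sub_right, inner_add_right, real_inner_smul_right, real_inner_smul_right]
        ring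
      rw [h4] at h3
      have h5 : (1 - c) ^ 2 * ⟪ξ, x⟫ ^ 2 + (-(2 * (1 - c) * s * ⟪ξ, x⟫)) * ⟪ξ, y⟫ +
          s ^ 2 * ⟪ξ, y⟫ ^ 2 = ((1 - c) * ⟪ξ, x⟫ - s * ⟪ξ, y⟫) ^ 2 := by ring
      rw [h5]
      rcases le_total (f x - f (c • x + s • y)) 0 with h | h
      · rw [max_eq_right h]
        nlinarith [sq_nonneg ((1 - c) * ⟪ξ, x⟫ - s * ⟪ξ, y⟫)]
      · rw [max_eq_left h]
        have : f x - f (c • x + s • y) ≤ (1 - c) * ⟪ξ, x⟫ - s * ⟪ξ, y⟫ := by linarith
        gcongr
    have i1 : Integrable (fun y : E => ⟪ξ, y⟫) (stdGaussian E) := by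
      refine integrable_norm.mono' (by fun_prop) (Filter.Eventually.of_forall fun y => ?_)
      rw [Real.norm_eq_abs]
      refine (abs_real_inner_le_norm ξ y).trans ?_
      nlinarith [norm_nonneg y]
    have i2 : Integrable (fun y : E => ⟪ξ, y⟫ ^ 2) (stdGaussian E) := by
      refine integrable_normsq.mono' (by fun_prop) (Filter.Eventually.of_forall fun y => ?_)
      rw [Real.norm_of_nonneg (sq_nonneg _), ← sq_abs]
      have := abs_real_inner_le_norm ξ y
      have h6 : ‖ξ‖ * ‖y‖ ≤ ‖y‖ := by nlinarith [norm_nonneg y]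
      gcongr
      linarith
    have j0 : Integrable (fun _ : E => (1 - c) ^ 2 * ⟪ξ, x⟫ ^ 2) (stdGaussian E) :=
      integrable_const _
    have j1 : Integrable (fun y : E => (-(2 * (1 - c) * s * ⟪ξ, x⟫)) * ⟪ξ, y⟫) (stdGaussian E) :=
      i1.const_mul _
    have j01 : Integrable (fun y : E => (1 - c) ^ 2 * ⟪ξ, x⟫ ^ 2 +
        (-(2 * (1 - c) * s * ⟪ξ, x⟫)) * ⟪ξ, y⟫) (stdGaussian E) := j0.add j1
    have j2 : Integrable (fun y : E => s ^ 2 * ⟪ξ, y⟫ ^ 2) (stdGaussian E) := i2.const_mul _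
    have i3 : Integrable (fun y : E => (1 - c) ^ 2 * ⟪ξ, x⟫ ^ 2 +
        (-(2 * (1 - c) * s * ⟪ξ, x⟫)) * ⟪ξ, y⟫ + s ^ 2 * ⟪ξ, y⟫ ^ 2) (stdGaussian E) :=
      j01.add j2
    have i4 : Integrable (fun y : E => (max (f x - f (c • x + s • y)) 0) ^ 2) (stdGaussian E) := by
      refine i3.mono' (Continuous.aestronglyMeasurable (by fun_prop))
        (Filter.Eventually.of_forall fun y => ?_)
      rw [Real.norm_of_nonneg (sq_nonneg _)]
      exact hpt y
    refine (integral_mono i4 i3 hpt).trans ?_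
    have q1 : ∫ _ : E, (1 - c) ^ 2 * ⟪ξ, x⟫ ^ 2 ∂(stdGaussian E) = (1 - c) ^ 2 * ⟪ξ, x⟫ ^ 2 := by
      simp
    have q2 : ∫ y : E, (-(2 * (1 - c) * s * ⟪ξ, x⟫)) * ⟪ξ, y⟫ ∂(stdGaussian E) = 0 := by
      rw [integral_const_mul, integral_inner, mul_zero]
    have q3 : ∫ y : E, s ^ 2 * ⟪ξ, y⟫ ^ 2 ∂(stdGaussian E) = s ^ 2 * ‖ξ‖ ^ 2 := by
      rw [integral_const_mul, integral_inner_sq]
    rw [integral_add j01 j2, integral_add j0 j1, q1, q2, q3, add_zero]
    have h7 : ⟪ξ, x⟫ ^ 2 ≤ ‖x‖ ^ 2 := by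
      rw [← sq_abs]
      have := abs_real_inner_le_norm ξ x
      have h6 : ‖ξ‖ * ‖x‖ ≤ ‖x‖ := by nlinarith [norm_nonneg x]
      gcongr
      linarith
    have h8 : ‖ξ‖ ^ 2 ≤ 1 := pow_le_one₀ (norm_nonneg _) h1
    nlinarith [sq_nonneg (1 - c), sq_nonneg s]
  have k1 : Integrable (fun x : E => (1 - c) ^ 2 * ‖x‖ ^ 2) (stdGaussian E) :=
    integrable_normsq.const_mul _
  have k2 : Integrable (fun _ : E => s ^ 2) (stdGaussian E) := integrable_const _
  have k3 : Integrable (fun x : E => (1 - c) ^ 2 * ‖x‖ ^ 2 + s ^ 2) (stdGaussian E) := k1.add k2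
  refine (integral_mono hint.integral_prod_left k3 key).trans ?_
  rw [integral_add k1 k2, integral_const_mul, integral_normsq, integral_const]
  simp

theorem Sub1.small {f : E → ℝ} (hf : Sub1 f) (c s : ℝ) (h : c ^ 2 + s ^ 2 = 1) :
    ∫ p : E × E, (f p.1 - f (c • p.1 + s • p.2)) ^ 2
      ∂((stdGaussian E).prod (stdGaussian E)) ≤ 2 * ((1 - c) ^ 2 * finrank ℝ E + s ^ 2) := by
  have hc := hf.continuous
  have hint : Integrable (fun p : E × E => (max (f p.1 - f (c • p.1 + s • p.2)) 0) ^ 2)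
      ((stdGaussian E).prod (stdGaussian E)) := by
    refine (hf.integrable_one c s).mono' (Continuous.aestronglyMeasurable (by fun_prop))
      (Filter.Eventually.of_forall fun p => ?_)
    rw [Real.norm_of_nonneg (sq_nonneg _)]
    exact max_sq_le _
  have hint' : Integrable (fun p : E × E => (max (-(f p.1 - f (c • p.1 + s • p.2))) 0) ^ 2)
      ((stdGaussian E).prod (stdGaussian E)) := by
    refine (hf.integrable_one c s).mono' (Continuous.aestronglyMeasurable (by fun_prop))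
      (Filter.Eventually.of_forall fun p => ?_)
    rw [Real.norm_of_nonneg (sq_nonneg _)]
    refine (max_sq_le _).trans ?_
    rw [neg_sq]
  have e1 : ∫ p : E × E, (f p.1 - f (c • p.1 + s • p.2)) ^ 2
      ∂((stdGaussian E).prod (stdGaussian E)) =
      (∫ p : E × E, (max (f p.1 - f (c • p.1 + s • p.2)) 0) ^ 2
        ∂((stdGaussian E).prod (stdGaussian E))) +
      ∫ p : E × E, (max (-(f p.1 - f (c • p.1 + s • p.2))) 0) ^ 2
        ∂((stdGaussian E).prod (stdGaussian E)) := by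
    rw [← integral_add hint hint']
    exact integral_congr_ae (Filter.Eventually.of_forall fun p => sq_eq_max _)
  have hmp := orth_mp (E := E) c s s (-c) h (by linarith [h]) (by ring)
  have e2 : (∫ p : E × E, (max (-(f p.1 - f (c • p.1 + s • p.2))) 0) ^ 2
        ∂((stdGaussian E).prod (stdGaussian E))) =
      ∫ p : E × E, (max (f p.1 - f (c • p.1 + s • p.2)) 0) ^ 2
        ∂((stdGaussian E).prod (stdGaussian E)) := by
    have e3 := integral_map (μ := (stdGaussian E).prod (stdGaussian E)) hmp.measurable.aemeasurable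
      (f := fun p : E × E => (max (-(f p.1 - f (c • p.1 + s • p.2))) 0) ^ 2)
      (by exact Continuous.aestronglyMeasurable (by fun_prop))
    rw [hmp.map_eq] at e3
    rw [e3]
    refine integral_congr_ae (Filter.Eventually.of_forall fun p => ?_)
    have e4 : c • (c • p.1 + s • p.2) + s • (s • p.1 + (-c) • p.2) = p.1 := by
      have : c • (c • p.1 + s • p.2) + s • (s • p.1 + (-c) • p.2) = (c ^ 2 + s ^ 2) • p.1 := by
        module
      rw [this, h, one_smul]
    show (max (-(f (c • p.1 + s • p.2) - f (c • (c • p.1 + s • p.2) + s • (s • p.1 + (-c) • p.2)))) 0)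
      ^ 2 = _
    rw [e4]
    congr 2
    ring
  rw [e1, e2]
  linarith [hf.half c s]

theorem Sub1.step {f : E → ℝ} (hf : Sub1 f) (θ δ : ℝ) :
    ∫ p : E × E, (f (Real.cos θ • p.1 + Real.sin θ • p.2) -
      f (Real.cos (θ + δ) • p.1 + Real.sin (θ + δ) • p.2)) ^ 2
      ∂((stdGaussian E).prod (stdGaussian E)) ≤
        2 * ((1 - Real.cos δ) ^ 2 * finrank ℝ E + Real.sin δ ^ 2) := by
  have hc := hf.continuous
  have h1 : Real.cos θ ^ 2 + Real.sin θ ^ 2 = 1 := Real.cos_sq_add_sin_sq θ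
  have hmp := orth_mp (E := E) (Real.cos θ) (Real.sin θ) (-Real.sin θ) (Real.cos θ) h1
    (by linarith [h1, neg_sq (Real.sin θ)]) (by ring)
  have e3 := integral_map (μ := (stdGaussian E).prod (stdGaussian E)) hmp.measurable.aemeasurable
      (f := fun p : E × E => (f p.1 - f (Real.cos δ • p.1 + Real.sin δ • p.2)) ^ 2)
      (by exact Continuous.aestronglyMeasurable (by fun_prop))
  rw [hmp.map_eq] at e3
  refine le_of_eq_of_le ?_ (hf.small (Real.cos δ) (Real.sin δ) (Real.cos_sq_add_sin_sq δ))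
  rw [e3]
  refine integral_congr_ae (Filter.Eventually.of_forall fun p => ?_)
  have e4 : Real.cos δ • (Real.cos θ • p.1 + Real.sin θ • p.2) +
      Real.sin δ • ((-Real.sin θ) • p.1 + Real.cos θ • p.2) =
      Real.cos (θ + δ) • p.1 + Real.sin (θ + δ) • p.2 := by
    rw [Real.cos_add, Real.sin_add]
    module
  show _ = (f (Real.cos θ • p.1 + Real.sin θ • p.2) - f (Real.cos δ • (Real.cos θ • p.1 +
    Real.sin θ • p.2) + Real.sin δ • ((-Real.sin θ) • p.1 + Real.cos θ • p.2))) ^ 2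
  rw [e4]

theorem Sub1.two {f : E → ℝ} (hf : Sub1 f) :
    ∫ p : E × E, (f p.1 - f p.2) ^ 2 ∂((stdGaussian E).prod (stdGaussian E)) ≤ 10 := by
  have hc := hf.continuous
  set n : ℕ := finrank ℝ E with hn
  set K : ℕ := n + 1 with hK
  set δ : ℝ := Real.pi / (2 * K) with hδ
  have hK0 : (0 : ℝ) < K := by rw [hK]; positivity
  set g : ℕ → E × E → ℝ := fun k p => f (Real.cos (k * δ) • p.1 + Real.sin (k * δ) • p.2) with hg
  have e0 : ∀ p : E × E, f p.1 - f p.2 = ∑ k ∈ Finset.range K, (g k p - g (k + 1) p) := by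
    intro p
    rw [Finset.sum_range_sub']
    have h1 : g 0 p = f p.1 := by simp [hg]
    have h2 : g K p = f p.2 := by
      have : (K : ℝ) * δ = Real.pi / 2 := by rw [hδ]; field_simp
      simp only [hg, this, Real.cos_pi_div_two, Real.sin_pi_div_two]
      simp
    rw [h1, h2]
  have hi : ∀ k, Integrable (fun p : E × E => (g k p - g (k + 1) p) ^ 2)
      ((stdGaussian E).prod (stdGaussian E)) := fun k => hf.integrable_cmb _ _ _ _
  have hi0 : Integrable (fun p : E × E => (f p.1 - f p.2) ^ 2)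
      ((stdGaussian E).prod (stdGaussian E)) := by simpa using hf.integrable_cmb 1 0 0 1
  have h1 : ∀ p : E × E, (f p.1 - f p.2) ^ 2 ≤
      K * ∑ k ∈ Finset.range K, (g k p - g (k + 1) p) ^ 2 := by
    intro p
    rw [e0 p]
    have := sq_sum_le_card_mul_sum_sq (s := Finset.range K) (f := fun k => g k p - g (k + 1) p)
    rwa [Finset.card_range] at this
  have h2 : ∫ p : E × E, (f p.1 - f p.2) ^ 2 ∂((stdGaussian E).prod (stdGaussian E)) ≤
      K * (K * (2 * ((1 - Real.cos δ) ^ 2 * n + Real.sin δ ^ 2))) := by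
    refine (integral_mono hi0 ((integrable_finsetSum _ fun k _ => hi k).const_mul _) h1).trans ?_
    rw [integral_const_mul, integral_finsetSum _ fun k _ => hi k]
    refine mul_le_mul_of_nonneg_left ?_ hK0.le
    refine (Finset.sum_le_sum fun k _ => ?_).trans_eq (b :=
      ∑ k ∈ Finset.range K, (2 * ((1 - Real.cos δ) ^ 2 * n + Real.sin δ ^ 2))) ?_
    · have h3 := hf.step (k * δ) δ
      have h4 : (k : ℝ) * δ + δ = ((k + 1 : ℕ) : ℝ) * δ := by push_cast; ring
      rw [h4] at h3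
      exact h3
    · rw [Finset.sum_const, Finset.card_range, nsmul_eq_mul]
  refine h2.trans ?_
  have hδ0 : 0 ≤ δ := by rw [hδ]; positivity
  have a1 : 1 - Real.cos δ ≤ δ ^ 2 / 2 := by linarith [Real.one_sub_sq_div_two_le_cos (x := δ)]
  have a2 : 0 ≤ 1 - Real.cos δ := by linarith [Real.cos_le_one δ]
  have a3 : Real.sin δ ^ 2 ≤ δ ^ 2 := by
    rw [← sq_abs, ← sq_abs δ]
    have := Real.abs_sin_le_abs (x := δ)
    gcongr
  have a4 : (1 - Real.cos δ) ^ 2 ≤ (δ ^ 2 / 2) ^ 2 := by gcongr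
  have a5 : (K : ℝ) * δ = Real.pi / 2 := by rw [hδ]; field_simp
  have a6 : Real.pi ^ 2 ≤ 10 := by
    have := Real.pi_lt_d2
    have h0 := Real.pi_pos
    nlinarith
  have hn0 : (0 : ℝ) ≤ n := Nat.cast_nonneg _
  have a7 : (n : ℝ) ≤ (K : ℝ) ^ 2 := by
    rw [hK]; push_cast; nlinarith
  calc (K : ℝ) * (K * (2 * ((1 - Real.cos δ) ^ 2 * n + Real.sin δ ^ 2)))
      ≤ K * (K * (2 * ((δ ^ 2 / 2) ^ 2 * (K : ℝ) ^ 2 + δ ^ 2))) := by gcongr
    _ = 2 * (K * δ) ^ 2 * (1 + (K * δ) ^ 2 / 4) := by ring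
    _ = Real.pi ^ 2 / 2 * (1 + Real.pi ^ 2 / 16) := by rw [a5]; ring
    _ ≤ 10 := by nlinarith [sq_nonneg Real.pi]

theorem Sub1.memLp {f : E → ℝ} (hf : Sub1 f) : MemLp f 2 (stdGaussian E) := by
  have h0 : MemLp (fun x : E => ‖x‖) 2 (stdGaussian E) :=
    (IsGaussian.memLp_two_id (μ := stdGaussian E)).norm
  have h00 : MemLp (fun _ : E => |f 0|) 2 (stdGaussian E) := memLp_const _
  have h1 : MemLp (fun x : E => |f 0| + ‖x‖) 2 (stdGaussian E) := h00.add h0
  refine h1.mono' hf.continuous.aestronglyMeasurable (Filter.Eventually.of_forall fun x => ?_)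
  rw [Real.norm_eq_abs]
  have h2 := hf.abs_sub_le x 0
  rw [sub_zero] at h2
  have h3 : |f x| ≤ |f 0| + |f x - f 0| := by
    calc |f x| = |f 0 + (f x - f 0)| := by ring_nf
      _ ≤ _ := abs_add_le _ _
  linarith

/-- **Gaussian variance bound** -/
theorem Sub1.variance_le {f : E → ℝ} (hf : Sub1 f) : Var[f; stdGaussian E] ≤ 5 := by
  have hL := hf.memLp
  have hi : Integrable f (stdGaussian E) := hL.integrable one_le_two
  have hi2 : Integrable (fun x => f x ^ 2) (stdGaussian E) := hL.integrable_sq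
  rw [variance_eq_sub hL]
  have h2 := hf.two
  have e1 : ∫ p : E × E, (f p.1 - f p.2) ^ 2 ∂((stdGaussian E).prod (stdGaussian E)) =
      2 * (∫ x, f x ^ 2 ∂(stdGaussian E)) - 2 * (∫ x, f x ∂(stdGaussian E)) ^ 2 := by
    have i1 : Integrable (fun p : E × E => f p.1 ^ 2) ((stdGaussian E).prod (stdGaussian E)) :=
      hi2.comp_fst _
    have i2 : Integrable (fun p : E × E => f p.2 ^ 2) ((stdGaussian E).prod (stdGaussian E)) :=
      hi2.comp_snd _
    have i3 : Integrable (fun p : E × E => f p.1 * f p.2) ((stdGaussian E).prod (stdGaussian E)) :=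
      hi.mul_prod hi
    have e2 : ∀ p : E × E, (f p.1 - f p.2) ^ 2 = f p.1 ^ 2 + f p.2 ^ 2 - 2 * (f p.1 * f p.2) := by
      intro p; ring
    simp only [e2]
    have i12 : Integrable (fun p : E × E => f p.1 ^ 2 + f p.2 ^ 2)
      ((stdGaussian E).prod (stdGaussian E)) := i1.add i2
    rw [integral_sub i12 (i3.const_mul 2), integral_add i1 i2, integral_const_mul,
      integral_prod_mul, integral_fun_fst (fun x => f x ^ 2), integral_fun_snd (fun x => f x ^ 2)]
    simp
    ring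
  rw [e1] at h2
  have e3 : (∫ x, (f ^ 2) x ∂(stdGaussian E)) = ∫ x, f x ^ 2 ∂(stdGaussian E) := rfl
  rw [e3]
  linarith

end Vale.Agent.P208.D257
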