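import Mathlib.Analysis.InnerProductSpace.Projection.Basic
import Mathlib.Analysis.InnerProductSpace.PiL2
import Mathlib.Analysis.Normed.Module.FiniteDimension
import Mathlib.Tactic

/-!
# P208: the Dvoretzky-Rogers lemma

`exists_ellipsoid` is copied from the P129 development; `exists_DR` : every infinite-dimensional
real normed space `Y` admits for every `N` a contraction `T : ℝ^N → Y` with `‖T e_i‖ ≥ 1/2`.
-/

namespace Vale.Agent.P208.D257

open Module
open scoped RealInnerProductSpace

/-- An infinite-dimensional space admits an injective linear map from `ℝ^n`. -/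
theorem exists_injective_euclidean {E : Type*} [NormedAddCommGroup E] [NormedSpace ℝ E]
    (hE : ¬ FiniteDimensional ℝ E) (n : ℕ) :
    ∃ e : EuclideanSpace ℝ (Fin n) →ₗ[ℝ] E, Function.Injective e := by
  let b := Basis.ofVectorSpace ℝ E
  have hinf : Infinite (Basis.ofVectorSpaceIndex ℝ E) := by
    by_contra hfin
    rw [not_infinite_iff_finite] at hfin
    exact hE (Module.Finite.of_basis b)
  let f : Fin n ↪ Basis.ofVectorSpaceIndex ℝ E :=
    Fin.valEmbedding.trans (Infinite.natEmbedding _)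
  refine ⟨(EuclideanSpace.basisFun (Fin n) ℝ).toBasis.constr ℝ (b ∘ f), ?_⟩
  exact Basis.injective_constr_of_linearIndependent _ (b.linearIndependent.comp f f.injective)

/-- Determinant of the map acting as `a` on `G` and as `c` modulo `G`. -/
theorem det_smul_proj {n : ℕ} (G : Submodule ℝ (EuclideanSpace ℝ (Fin n))) (a c : ℝ) :
    LinearMap.det (c • LinearMap.id +
      (a - c) • (G.starProjection : EuclideanSpace ℝ (Fin n) →L[ℝ] EuclideanSpace ℝ (Fin n)).toLinearMap)
      = a ^ (finrank ℝ G) * c ^ (n - finrank ℝ G) := by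
  set B : EuclideanSpace ℝ (Fin n) →ₗ[ℝ] EuclideanSpace ℝ (Fin n) := c • LinearMap.id +
      (a - c) • (G.starProjection : EuclideanSpace ℝ (Fin n) →L[ℝ] EuclideanSpace ℝ (Fin n)).toLinearMap
    with hB
  have hmem : ∀ v, G.starProjection v ∈ G := fun v => G.starProjection_apply_mem v
  have hBG : ∀ v ∈ G, B v = a • v := by
    intro v hv
    have : G.starProjection v = v := Submodule.starProjection_eq_self_iff.2 hv
    simp only [hB, LinearMap.add_apply, LinearMap.smul_apply, LinearMap.id_apply,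
      ContinuousLinearMap.coe_coe, this, ← add_smul]
    congr 1
    ring
  have he : G ≤ G.comap B := by
    intro v hv
    simp only [Submodule.mem_comap, hBG v hv]
    exact G.smul_mem a hv
  rw [LinearMap.det_eq_det_mul_det G B he]
  have h1 : B.restrict he = a • LinearMap.id := by
    ext v
    simp only [LinearMap.restrict_apply, hBG v v.2, PiLp.smul_apply, smul_eq_mul, LinearMap.smul_apply, LinearMap.id_coe, id_eq, SetLike.val_smul]
  have h2 : G.mapQ G B he = c • LinearMap.id := by
    apply Submodule.linearMap_qext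
    ext1 v
    simp only [LinearMap.comp_apply, Submodule.mkQ_apply, Submodule.mapQ_apply,
      LinearMap.smul_apply, LinearMap.id_apply]
    rw [← Submodule.Quotient.mk_smul, Submodule.Quotient.eq]
    simp only [hB, LinearMap.add_apply, LinearMap.smul_apply, LinearMap.id_apply, ContinuousLinearMap.coe_coe, add_sub_cancel_left]
    exact G.smul_mem _ (hmem v)
  rw [h1, h2, LinearMap.det_smul, LinearMap.det_smul, LinearMap.det_id, LinearMap.det_id,
    mul_one, mul_one, Submodule.finrank_quotient, finrank_euclideanSpace_fin]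

theorem exists_ellipsoid {E : Type*} [NormedAddCommGroup E] [NormedSpace ℝ E]
    (hE : ¬ FiniteDimensional ℝ E) (n : ℕ) :
    ∃ T : EuclideanSpace ℝ (Fin n) →ₗ[ℝ] E, (∀ v, ‖T v‖ ≤ ‖v‖) ∧
      ∀ G : Submodule ℝ (EuclideanSpace ℝ (Fin n)), n < 2 * Module.finrank ℝ G →
        ∃ g ∈ G, ‖g‖ = 1 ∧ 1 / 2 ≤ ‖T g‖ := by
  obtain ⟨e, he⟩ := exists_injective_euclidean hE n
  obtain ⟨K, hK0, hK⟩ := e.exists_antilipschitzWith (LinearMap.ker_eq_bot.2 he)
  have hKe : ∀ v, ‖v‖ ≤ K * ‖e v‖ := by
    intro v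
    simpa only [dist_zero_right, map_zero] using hK.le_mul_dist v 0
  have hec : Continuous e := e.continuous_of_finiteDimensional
  let S : Set (EuclideanSpace ℝ (Fin n) →L[ℝ] EuclideanSpace ℝ (Fin n)) :=
    {A | ∀ v, ‖e (A v)‖ ≤ ‖v‖}
  have hSclosed : IsClosed S := by
    have : S = ⋂ v, {A | ‖e (A v)‖ ≤ ‖v‖} := by
      ext A
      simp only [Set.mem_ofPred_eq, Set.mem_iInter, S]
    rw [this]
    refine isClosed_iInter fun v => ?_
    refine isClosed_le ?_ continuous_const
    exact (hec.comp (ContinuousLinearMap.apply ℝ _ v).continuous).norm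
  have hSbdd : Bornology.IsBounded S := by
    refine (isBounded_iff_forall_norm_le).2 ⟨K, fun A hA => ?_⟩
    refine ContinuousLinearMap.opNorm_le_bound _ K.2 fun v => ?_
    calc ‖A v‖ ≤ K * ‖e (A v)‖ := hKe _
      _ ≤ K * ‖v‖ := by gcongr; exact hA v
  have hScomp : IsCompact S := Metric.isCompact_of_isClosed_isBounded hSclosed hSbdd
  have hdetc : Continuous fun A : EuclideanSpace ℝ (Fin n) →L[ℝ] EuclideanSpace ℝ (Fin n) =>
      |LinearMap.det A.toLinearMap| := ContinuousLinearMap.continuous_det.abs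
  -- a nondegenerate element of `S`
  obtain ⟨t, ht0, ht⟩ : ∃ t : ℝ, 0 < t ∧ ∀ v, ‖e (t • v)‖ ≤ ‖v‖ := by
    let ec : EuclideanSpace ℝ (Fin n) →L[ℝ] E := LinearMap.toContinuousLinearMap e
    refine ⟨1 / (‖ec‖ + 1), by positivity, fun v => ?_⟩
    have h1 : ‖e v‖ ≤ ‖ec‖ * ‖v‖ := ec.le_opNorm v
    rw [map_smul, norm_smul, Real.norm_of_nonneg (by positivity), div_mul_eq_mul_div, one_mul,
      div_le_iff₀ (by positivity)]
    nlinarith only [h1, norm_nonneg v]
  have hA0 : (t • (ContinuousLinearMap.id ℝ (EuclideanSpace ℝ (Fin n)))) ∈ S := by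
    intro v
    simpa only [smul_apply, ContinuousLinearMap.id_apply, map_smul] using ht v
  obtain ⟨A, hAS, hAmax⟩ := hScomp.exists_isMaxOn ⟨_, hA0⟩ hdetc.continuousOn
  have hApos : 0 < |LinearMap.det A.toLinearMap| := by
    refine lt_of_lt_of_le ?_ (hAmax hA0)
    have : ((t • (ContinuousLinearMap.id ℝ (EuclideanSpace ℝ (Fin n)))).toLinearMap)
        = t • LinearMap.id := rfl
    simp only [this, LinearMap.det_smul, LinearMap.det_id, mul_one]
    positivity
  refine ⟨e ∘ₗ A.toLinearMap, fun v => hAS v, fun G hG => ?_⟩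
  by_contra hcon
  push Not at hcon
  have hTG : ∀ g ∈ G, ‖e (A g)‖ ≤ 1 / 2 * ‖g‖ := by
    intro g hg
    rcases eq_or_ne g 0 with rfl | hg0
    · simp
    · have hn : 0 < ‖g‖ := norm_pos_iff.2 hg0
      have h1 := hcon (‖g‖⁻¹ • g) (G.smul_mem _ hg) (by
        rw [norm_smul, norm_inv, norm_norm, inv_mul_cancel₀ hn.ne'])
      simp only [LinearMap.comp_apply, ContinuousLinearMap.coe_coe, map_smul, norm_smul, norm_inv,
        norm_norm] at h1
      rw [inv_mul_lt_iff₀ hn] at h1
      linarith only [h1]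
  set s : ℝ := √2 with hs
  have hs2 : s * s = 2 := Real.mul_self_sqrt (by norm_num)
  have hs0 : 0 < s := Real.sqrt_pos.2 (by norm_num)
  let B : EuclideanSpace ℝ (Fin n) →L[ℝ] EuclideanSpace ℝ (Fin n) :=
    (s / 2) • ContinuousLinearMap.id ℝ _ + (s - s / 2) • G.starProjection
  have hBdet : LinearMap.det B.toLinearMap = s ^ (finrank ℝ G) * (s / 2) ^ (n - finrank ℝ G) :=
    det_smul_proj G s (s / 2)
  have hBS : A ∘L B ∈ S := by
    intro v
    set p := G.starProjection v with hp
    have hpG : p ∈ G := G.starProjection_apply_mem v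
    have hqG : v - p ∈ Gᗮ := G.sub_starProjection_mem_orthogonal v
    have hBv : B v = s • p + (s / 2) • (v - p) := by
      simp only [B, add_apply, smul_apply,
        ContinuousLinearMap.id_apply, ← hp]
      module
    have hpyth : ‖v‖ * ‖v‖ = ‖p‖ * ‖p‖ + ‖v - p‖ * ‖v - p‖ := by
      have h := norm_add_sq_eq_norm_sq_add_norm_sq_of_inner_eq_zero p (v - p)
        (hqG p hpG)
      simpa only [add_sub_cancel] using h
    have h1 : ‖e (A (B v))‖ ≤ s / 2 * (‖p‖ + ‖v - p‖) := by
      rw [hBv, map_add, map_add, map_smul, map_smul, map_smul, map_smul]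
      calc ‖s • e (A p) + (s / 2) • e (A (v - p))‖
          ≤ ‖s • e (A p)‖ + ‖(s / 2) • e (A (v - p))‖ := norm_add_le _ _
        _ = s * ‖e (A p)‖ + s / 2 * ‖e (A (v - p))‖ := by
            rw [norm_smul, norm_smul, Real.norm_of_nonneg hs0.le,
              Real.norm_of_nonneg (by positivity)]
        _ ≤ s * (1 / 2 * ‖p‖) + s / 2 * ‖v - p‖ := by
            gcongr
            · exact hTG p hpG
            · exact hAS (v - p)
        _ = s / 2 * (‖p‖ + ‖v - p‖) := by ring
    change ‖e (A (B v))‖ ≤ ‖v‖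
    refine h1.trans ?_
    refine abs_le_of_sq_le_sq' ?_ (norm_nonneg v) |>.2
    nlinarith only [hs2, hpyth, sq_nonneg (‖p‖ - ‖v - p‖)]
  have hmax := hAmax hBS
  replace hmax : |LinearMap.det (A ∘L B).toLinearMap| ≤ |LinearMap.det A.toLinearMap| := hmax
  have hcomp : LinearMap.det (A ∘L B).toLinearMap
      = LinearMap.det A.toLinearMap * LinearMap.det B.toLinearMap := by
    rw [← LinearMap.det_comp]
    rfl
  rw [hcomp, abs_mul, hBdet] at hmax
  have hk : finrank ℝ G ≤ n := by
    simpa only [finrank_euclideanSpace, Fintype.card_fin] using Submodule.finrank_le G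
  set k := finrank ℝ G with hkdef
  have hbig : (1 : ℝ) < s ^ k * (s / 2) ^ (n - k) := by
    have hs1 : 1 < s := by
      by_contra h
      push Not at h
      nlinarith only [hs2, h, hs0]
    have hinv : s / 2 = s⁻¹ := by
      refine eq_inv_of_mul_eq_one_left ?_
      linarith only [hs2]
    have hlt : n - k < k := by omega
    rw [hinv, inv_pow, ← div_eq_mul_inv, one_lt_div (by positivity)]
    exact pow_lt_pow_right₀ hs1 hlt
  rw [abs_of_pos (by positivity : 0 < s ^ k * (s / 2) ^ (n - k))] at hmax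
  nlinarith only [hmax, hApos, hbig]


/-- greedy choice -/
theorem exists_greedy {Y : Type*} [NormedAddCommGroup Y] [NormedSpace ℝ Y] {N : ℕ}
    (T : EuclideanSpace ℝ (Fin (2 * N)) →ₗ[ℝ] Y)
    (hT : ∀ G : Submodule ℝ (EuclideanSpace ℝ (Fin (2 * N))), 2 * N < 2 * Module.finrank ℝ G →
        ∃ g ∈ G, ‖g‖ = 1 ∧ 1 / 2 ≤ ‖T g‖) (k : ℕ) (hk : k ≤ N) :
    ∃ u : Fin k → EuclideanSpace ℝ (Fin (2 * N)), Orthonormal ℝ u ∧ ∀ i, 1 / 2 ≤ ‖T (u i)‖ := by
  induction k with
  | zero => exact ⟨fun i => i.elim0, ⟨fun i => i.elim0, fun i => i.elim0⟩, fun i => i.elim0⟩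
  | succ k ih =>
    obtain ⟨u, hu, hT1⟩ := ih (by omega)
    set S := Submodule.span ℝ (Set.range u) with hS
    have hfS : finrank ℝ S = k := by
      rw [hS, finrank_span_eq_card hu.linearIndependent, Fintype.card_fin]
    have hf : finrank ℝ S + finrank ℝ Sᗮ = 2 * N := by
      rw [Submodule.finrank_add_finrank_orthogonal]
      simp
    obtain ⟨g, hgG, hg1, hg2⟩ := hT Sᗮ (by omega)
    have hort : ∀ i, ⟪u i, g⟫ = 0 := fun i =>
      (Submodule.mem_orthogonal S g).1 hgG (u i) (Submodule.subset_span ⟨i, rfl⟩)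
    refine ⟨Fin.cons g u, ⟨fun i => ?_, fun i j hij => ?_⟩, fun i => ?_⟩
    · refine Fin.cases ?_ (fun i => ?_) i
      · simpa using hg1
      · simpa using hu.1 i
    · revert hij
      refine Fin.cases (Fin.cases ?_ (fun j => ?_) j) (fun i => Fin.cases ?_ (fun j => ?_) j) i
      · intro h; exact absurd rfl h
      · intro _
        simp only [Fin.cons_zero, Fin.cons_succ]
        rw [real_inner_comm]
        exact hort j
      · intro _
        simp only [Fin.cons_zero, Fin.cons_succ]
        exact hort i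
      · intro h
        simp only [Fin.cons_succ]
        exact hu.2 fun h' => h (by rw [h'])
    · refine Fin.cases ?_ (fun i => ?_) i
      · simpa using hg2
      · simpa using hT1 i

/-- **Dvoretzky-Rogers** -/
theorem exists_DR {Y : Type*} [NormedAddCommGroup Y] [NormedSpace ℝ Y]
    (hY : ¬ FiniteDimensional ℝ Y) (N : ℕ) :
    ∃ T : EuclideanSpace ℝ (Fin N) →ₗ[ℝ] Y, (∀ v, ‖T v‖ ≤ ‖v‖) ∧
      ∀ i, 1 / 2 ≤ ‖T (EuclideanSpace.single i 1)‖ := by
  obtain ⟨T, h1, h2⟩ := exists_ellipsoid hY (2 * N)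
  obtain ⟨u, hu, hu2⟩ := exists_greedy T h2 N le_rfl
  set b := (EuclideanSpace.basisFun (Fin N) ℝ) with hb
  set f : EuclideanSpace ℝ (Fin N) →ₗ[ℝ] EuclideanSpace ℝ (Fin (2 * N)) :=
    b.toBasis.constr ℝ u with hf
  have hfb : ∀ i, f (b i) = u i := by
    intro i
    rw [hf, ← b.coe_toBasis]
    exact b.toBasis.constr_basis ℝ u i
  have hfo : Orthonormal ℝ (f ∘ b.toBasis) := by
    have : f ∘ b.toBasis = u := by
      funext i
      simpa using hfb i
    rw [this]
    exact hu
  have hbo : Orthonormal ℝ b.toBasis := by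
    rw [b.coe_toBasis]
    exact b.orthonormal
  set F := f.isometryOfOrthonormal hbo hfo with hF
  have hFf : ∀ v, F v = f v := fun v => rfl
  refine ⟨T ∘ₗ f, fun v => ?_, fun i => ?_⟩
  · rw [LinearMap.comp_apply]
    refine (h1 _).trans ?_
    rw [← hFf, F.norm_map]
  · rw [LinearMap.comp_apply]
    have : (EuclideanSpace.single i (1 : ℝ)) = b i := by simp [hb]
    rw [this, hfb]
    exact hu2 i

end Vale.Agent.P208.D257
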