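import Vale.Agent.P208.H257.Mean

/-!
# P208: Dvoretzky's theorem

Every infinite-dimensional real normed space contains, for every `m` and every `ε > 0`, a
`(1+ε)`-copy of Euclidean `ℝ^m`.
-/

namespace Vale.Agent.P208.D257

open MeasureTheory ProbabilityTheory Module
open scoped RealInnerProductSpace

/-- a finite net of the unit sphere of `ℝ^m` -/
theorem exists_net (m : ℕ) {δ : ℝ} (hδ : 0 < δ) : ∃ F : Finset (EuclideanSpace ℝ (Fin m)),
    (∀ y ∈ F, ‖y‖ = 1) ∧ ∀ x : EuclideanSpace ℝ (Fin m), ‖x‖ = 1 → ∃ y ∈ F, ‖x - y‖ ≤ δ := by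
  classical
  have hc : IsCompact (Metric.sphere (0 : EuclideanSpace ℝ (Fin m)) 1) := isCompact_sphere _ _
  obtain ⟨t, hts, htf, ht⟩ := hc.finite_cover_balls hδ
  refine ⟨htf.toFinset, fun y hy => ?_, fun x hx => ?_⟩
  · simpa using hts (by simpa using hy)
  · have h1 : x ∈ Metric.sphere (0 : EuclideanSpace ℝ (Fin m)) 1 := by simpa using hx
    obtain ⟨y, hy, hxy⟩ := Set.mem_iUnion₂.1 (ht h1)
    refine ⟨y, by simpa using hy, ?_⟩
    rw [Metric.mem_ball, dist_eq_norm] at hxy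
    exact hxy.le

/-- a linear map which is almost isometric on a net is almost isometric -/
theorem net_to_all {m : ℕ} {Y : Type*} [NormedAddCommGroup Y] [NormedSpace ℝ Y]
    (A : EuclideanSpace ℝ (Fin m) →ₗ[ℝ] Y) {θ M : ℝ} (hθ : 0 < θ) (hθ1 : θ < 1) (hM : 0 < M)
    {F : Finset (EuclideanSpace ℝ (Fin m))} (hF1 : ∀ y ∈ F, ‖y‖ = 1)
    (hF : ∀ x : EuclideanSpace ℝ (Fin m), ‖x‖ = 1 → ∃ y ∈ F, ‖x - y‖ ≤ θ)
    (hA : ∀ y ∈ F, |‖A y‖ - M| ≤ θ * M) (x : EuclideanSpace ℝ (Fin m)) :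
    (1 - 3 * θ) / (1 - θ) * M * ‖x‖ ≤ ‖A x‖ ∧ ‖A x‖ ≤ (1 + θ) / (1 - θ) * M * ‖x‖ := by
  have h1θ : 0 < 1 - θ := by linarith
  set Ac := LinearMap.toContinuousLinearMap A with hAc
  have hAcv : ∀ v, Ac v = A v := fun v => rfl
  -- the operator norm
  have hB : ‖Ac‖ ≤ (1 + θ) / (1 - θ) * M := by
    have h1 : ‖Ac‖ ≤ (1 + θ) * M + θ * ‖Ac‖ := by
      refine ContinuousLinearMap.opNorm_le_bound _ (by positivity) fun v => ?_
      rcases eq_or_ne v 0 with rfl | hv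
      · simp
      have hn : 0 < ‖v‖ := norm_pos_iff.2 hv
      set w := ‖v‖⁻¹ • v with hw
      have hw1 : ‖w‖ = 1 := by
        rw [hw, norm_smul, norm_inv, norm_norm, inv_mul_cancel₀ hn.ne']
      obtain ⟨y, hyF, hy⟩ := hF w hw1
      have h2 := abs_le.1 (hA y hyF)
      have h3 : ‖Ac w‖ ≤ ‖A y‖ + ‖Ac (w - y)‖ := by
        have : Ac w = A y + Ac (w - y) := by rw [map_sub, ← hAcv]; abel
        rw [this]
        exact norm_add_le _ _
      have h4 : ‖Ac (w - y)‖ ≤ ‖Ac‖ * θ := (Ac.le_opNorm _).trans (by gcongr)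
      have h5 : ‖Ac w‖ ≤ (1 + θ) * M + θ * ‖Ac‖ := by linarith [h2.2]
      have h6 : v = ‖v‖ • w := by
        rw [hw, smul_smul, mul_inv_cancel₀ hn.ne', one_smul]
      calc ‖Ac v‖ = ‖v‖ * ‖Ac w‖ := by
            conv_lhs => rw [h6]
            rw [map_smul, norm_smul, norm_norm]
        _ ≤ ‖v‖ * ((1 + θ) * M + θ * ‖Ac‖) := by gcongr
        _ = _ := mul_comm _ _
    rw [div_mul_eq_mul_div, le_div_iff₀ h1θ]
    linarith
  constructor
  · rcases eq_or_ne x 0 with rfl | hx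
    · simp
    have hn : 0 < ‖x‖ := norm_pos_iff.2 hx
    set w := ‖x‖⁻¹ • x with hw
    have hw1 : ‖w‖ = 1 := by
      rw [hw, norm_smul, norm_inv, norm_norm, inv_mul_cancel₀ hn.ne']
    obtain ⟨y, hyF, hy⟩ := hF w hw1
    have h2 := abs_le.1 (hA y hyF)
    have h3 : ‖A y‖ ≤ ‖Ac w‖ + ‖Ac (w - y)‖ := by
      have : A y = Ac w - Ac (w - y) := by rw [map_sub, ← hAcv]; abel
      rw [this]
      exact norm_sub_le _ _
    have h4 : ‖Ac (w - y)‖ ≤ (1 + θ) / (1 - θ) * M * θ := (Ac.le_opNorm _).trans (by gcongr)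
    have h5 : (1 - 3 * θ) / (1 - θ) * M ≤ ‖Ac w‖ := by
      have h6 : (1 - 3 * θ) / (1 - θ) * M = (1 - θ) * M - (1 + θ) / (1 - θ) * M * θ := by
        field_simp
        ring
      rw [h6]
      linarith [h2.1]
    have h6 : x = ‖x‖ • w := by
      rw [hw, smul_smul, mul_inv_cancel₀ hn.ne', one_smul]
    have h7 : ‖Ac x‖ = ‖x‖ * ‖Ac w‖ := by
      conv_lhs => rw [h6]
      rw [map_smul, norm_smul, norm_norm]
    calc (1 - 3 * θ) / (1 - θ) * M * ‖x‖ ≤ ‖Ac w‖ * ‖x‖ := by gcongr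
      _ = ‖Ac x‖ := by rw [h7, mul_comm]
  · calc ‖A x‖ = ‖Ac x‖ := rfl
      _ ≤ ‖Ac‖ * ‖x‖ := Ac.le_opNorm _
      _ ≤ _ := by gcongr

/-- **Dvoretzky's theorem** -/
theorem dvoretzky {Y : Type} [NormedAddCommGroup Y] [NormedSpace ℝ Y]
    (hY : ¬ FiniteDimensional ℝ Y) (m : ℕ) {ε : ℝ} (hε : 0 < ε) :
    ∃ A : EuclideanSpace ℝ (Fin m) →ₗ[ℝ] Y, ∀ x, ‖x‖ ≤ ‖A x‖ ∧ ‖A x‖ ≤ (1 + ε) * ‖x‖ := by
  classical
  set θ : ℝ := min ε 1 / 10 with hθ
  have hε1 : 0 < min ε 1 := lt_min hε one_pos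
  have hθ0 : 0 < θ := by positivity
  have hθ1 : θ ≤ 1 / 10 := by
    rw [hθ]
    have := min_le_right ε 1
    linarith
  have hθε : 10 * θ ≤ ε := by
    rw [hθ]
    have := min_le_left ε 1
    linarith
  obtain ⟨F, hF1, hF⟩ := exists_net m hθ0
  -- the mean has to be larger than `t`
  set t : ℝ := (5 * F.card + 1) / θ ^ 2 + 1 with ht
  have ht1 : 1 ≤ t := by rw [ht]; have : 0 ≤ (5 * (F.card : ℝ) + 1) / θ ^ 2 := by positivity
                         linarith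
  obtain ⟨N, hN⟩ := exists_mean_ge t
  obtain ⟨T, hT1, hT2⟩ := exists_DR hY N
  have hMt := hN T hT1 hT2
  set M := ∫ x, ‖T x‖ ∂(stdGaussian (EuclideanSpace ℝ (Fin N))) with hM
  have hM0 : 0 < M := by linarith
  have hS := sub1_norm T hT1
  -- the random map
  set E := EuclideanSpace ℝ (Fin N) with hE
  set P : Measure (Fin m → E) := Measure.pi fun _ : Fin m => stdGaussian E with hP
  have hbad : ∀ y ∈ F, P {G | θ * M < |‖T (∑ i, y i • G i)‖ - M|} ≤
      ENNReal.ofReal (5 / (θ * M) ^ 2) := by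
    intro y hy
    have hy1 : ∑ i, y i ^ 2 = 1 := by
      have := hF1 y hy
      rw [EuclideanSpace.norm_eq, Real.sqrt_eq_one] at this
      simpa using this
    have e1 := map_comb (E := E) (fun i => y i) hy1
    have hTc : Continuous fun x : E => ‖T x‖ := hS.continuous
    have hms : MeasurableSet {x : E | θ * M ≤ |‖T x‖ - M|} :=
      measurableSet_le measurable_const (Continuous.measurable (by fun_prop))
    have hGm : Measurable fun G : Fin m → E => ∑ i, y i • G i := by fun_prop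
    have e2 : P {G | θ * M ≤ |‖T (∑ i, y i • G i)‖ - M|} =
        stdGaussian E {x : E | θ * M ≤ |‖T x‖ - M|} := by
      rw [← e1, Measure.map_apply hGm hms]
      rfl
    refine (measure_mono (fun G hG => ?_)).trans (e2.trans_le ?_)
    · have hG' : θ * M < |‖T (∑ i, y i • G i)‖ - M| := hG
      show θ * M ≤ |‖T (∑ i, y i • G i)‖ - M|
      exact hG'.le
    · have h1 := meas_ge_le_variance_div_sq hS.memLp (c := θ * M) (by positivity)
      refine h1.trans (ENNReal.ofReal_le_ofReal ?_)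
      have := hS.variance_le
      gcongr
  have hsum : P (⋃ y ∈ F, {G | θ * M < |‖T (∑ i, y i • G i)‖ - M|}) < 1 := by
    refine (measure_biUnion_finset_le F _).trans_lt ?_
    refine (Finset.sum_le_sum hbad).trans_lt ?_
    rw [Finset.sum_const, nsmul_eq_mul]
    have h1 : (F.card : ℝ) * (5 / (θ * M) ^ 2) < 1 := by
      rw [mul_div_assoc', div_lt_one (by positivity)]
      have h2 : (5 * F.card + 1) / θ ^ 2 < M := by
        have : (5 * (F.card : ℝ) + 1) / θ ^ 2 = t - 1 := by rw [ht]; ring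
        rw [this]
        linarith
      rw [div_lt_iff₀ (by positivity)] at h2
      have h3 : M ≤ M ^ 2 := by nlinarith
      have h4 : M * θ ^ 2 ≤ M ^ 2 * θ ^ 2 := by gcongr
      calc (F.card : ℝ) * 5 < 5 * F.card + 1 := by linarith
        _ ≤ M * θ ^ 2 := h2.le
        _ ≤ M ^ 2 * θ ^ 2 := h4
        _ = (θ * M) ^ 2 := by ring
    have h5 : (F.card : ENNReal) * ENNReal.ofReal (5 / (θ * M) ^ 2) =
        ENNReal.ofReal ((F.card : ℝ) * (5 / (θ * M) ^ 2)) := by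
      rw [ENNReal.ofReal_mul (Nat.cast_nonneg _), ENNReal.ofReal_natCast]
    rw [h5]
    exact (ENNReal.ofReal_lt_one).2 h1
  have hex : ∃ G : Fin m → E, G ∉ ⋃ y ∈ F, {G | θ * M < |‖T (∑ i, y i • G i)‖ - M|} := by
    by_contra hcon
    push Not at hcon
    have : (⋃ y ∈ F, {G : Fin m → E | θ * M < |‖T (∑ i, y i • G i)‖ - M|}) = Set.univ :=
      Set.eq_univ_of_forall hcon
    rw [this, measure_univ] at hsum
    exact lt_irrefl _ hsum
  obtain ⟨G, hG⟩ := hex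
  simp only [Set.mem_iUnion, Set.mem_ofPred_eq, not_exists, not_lt] at hG
  -- the linear map
  set S : EuclideanSpace ℝ (Fin m) →ₗ[ℝ] E :=
    ∑ i, (LinearMap.toSpanSingleton ℝ E (G i)).comp
      (EuclideanSpace.proj i : EuclideanSpace ℝ (Fin m) →L[ℝ] ℝ).toLinearMap with hSdef
  have hSv : ∀ x, S x = ∑ i, x i • G i := by
    intro x
    simp [hSdef, LinearMap.sum_apply]
  have hall := net_to_all (T ∘ₗ S) hθ0 (by linarith) hM0 hF1 hF (fun y hy => by
    rw [LinearMap.comp_apply, hSv]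
    exact hG y hy)
  -- normalisation
  set a : ℝ := (1 - 3 * θ) / (1 - θ) * M with ha
  have h1θ : 0 < 1 - θ := by linarith
  have h3θ : 0 < 1 - 3 * θ := by linarith
  have ha0 : 0 < a := by rw [ha]; positivity
  refine ⟨a⁻¹ • (T ∘ₗ S), fun x => ?_⟩
  obtain ⟨h1, h2⟩ := hall x
  rw [LinearMap.smul_apply, norm_smul, norm_inv, Real.norm_of_nonneg ha0.le]
  constructor
  · rw [← div_eq_inv_mul, le_div_iff₀ ha0, mul_comm]
    exact h1
  · rw [← div_eq_inv_mul, div_le_iff₀ ha0]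
    refine h2.trans ?_
    have h3 : (1 + θ) ≤ (1 + ε) * (1 - 3 * θ) := by nlinarith
    have h4 : (1 + θ) / (1 - θ) * M ≤ (1 + ε) * a := by
      rw [ha, div_mul_eq_mul_div, div_mul_eq_mul_div, mul_div_assoc', div_le_div_iff_of_pos_right h1θ]
      nlinarith
    calc (1 + θ) / (1 - θ) * M * ‖x‖ ≤ (1 + ε) * a * ‖x‖ := by gcongr
      _ = (1 + ε) * ‖x‖ * a := by ring

end Vale.Agent.P208.D257
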