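import Mathlib.Probability.Distributions.Gaussian.Multivariate
import Mathlib.Probability.Distributions.Gaussian.CharFun
import Mathlib.Probability.Distributions.Gaussian.Fernique
import Mathlib.Analysis.InnerProductSpace.Dual
import Mathlib.Tactic

/-!
# P208: Gaussian concentration (variance form) for norms

For a standard Gaussian vector `g` of a Euclidean space and a function `f` with subgradients of
norm at most one, `Var f(g) ≤ 10`.
-/

namespace Vale.Agent.P208.D257

open MeasureTheory ProbabilityTheory Module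
open scoped RealInnerProductSpace

variable {E : Type*} [NormedAddCommGroup E] [InnerProductSpace ℝ E] [FiniteDimensional ℝ E]
  [MeasurableSpace E] [BorelSpace E]

/-- norm identity for the dual -/
theorem dual_comb (L M : StrongDual ℝ E) (a b c d : ℝ) (h1 : a ^ 2 + b ^ 2 = 1)
    (h2 : c ^ 2 + d ^ 2 = 1) (h3 : a * c + b * d = 0) :
    ‖a • L + c • M‖ ^ 2 + ‖b • L + d • M‖ ^ 2 = ‖L‖ ^ 2 + ‖M‖ ^ 2 := by
  obtain ⟨u, rfl⟩ := (InnerProductSpace.toDual ℝ E).surjective L
  obtain ⟨v, rfl⟩ := (InnerProductSpace.toDual ℝ E).surjective M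
  have e : ∀ x y : ℝ, x • (InnerProductSpace.toDual ℝ E) u + y • (InnerProductSpace.toDual ℝ E) v =
      (InnerProductSpace.toDual ℝ E) (x • u + y • v) := by
    intro x y
    rw [map_add, LinearIsometryEquiv.map_smulₛₗ, LinearIsometryEquiv.map_smulₛₗ]
    simp
  rw [e, e, LinearIsometryEquiv.norm_map, LinearIsometryEquiv.norm_map,
    LinearIsometryEquiv.norm_map, LinearIsometryEquiv.norm_map]
  rw [norm_add_sq_real, norm_add_sq_real]
  simp only [norm_smul, real_inner_smul_left, real_inner_smul_right, mul_pow, Real.norm_eq_abs,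
    sq_abs]
  linear_combination ‖u‖ ^ 2 * h1 + ‖v‖ ^ 2 * h2 + 2 * ⟪u, v⟫ * h3

/-- orthogonal transformations of a pair of independent standard Gaussian vectors -/
theorem map_orth (a b c d : ℝ) (h1 : a ^ 2 + b ^ 2 = 1)
    (h2 : c ^ 2 + d ^ 2 = 1) (h3 : a * c + b * d = 0) :
    ((stdGaussian E).prod (stdGaussian E)).map
      (fun p => (a • p.1 + b • p.2, c • p.1 + d • p.2)) =
      (stdGaussian E).prod (stdGaussian E) := by
  set R : E × E →L[ℝ] E × E :=
    (a • ContinuousLinearMap.fst ℝ E E + b • ContinuousLinearMap.snd ℝ E E).prod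
      (c • ContinuousLinearMap.fst ℝ E E + d • ContinuousLinearMap.snd ℝ E E) with hR
  have e : (fun p : E × E => (a • p.1 + b • p.2, c • p.1 + d • p.2)) = R := by
    funext p
    simp [hR]
  rw [e]
  refine Measure.ext_of_charFunDual ?_
  ext L
  rw [charFunDual_map, charFunDual_prod, charFunDual_prod]
  simp only [charFunDual_stdGaussian]
  rw [← Complex.exp_add, ← Complex.exp_add]
  congr 1
  have e1 : (L.comp R).comp (ContinuousLinearMap.inl ℝ E E) =
      a • L.comp (ContinuousLinearMap.inl ℝ E E) + c • L.comp (ContinuousLinearMap.inr ℝ E E) := by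
    ext x
    have : R (x, 0) = a • (x, 0) + c • (0, x) := by simp [hR]
    simp only [ContinuousLinearMap.comp_apply, ContinuousLinearMap.inl_apply, this, map_add,
      map_smul, add_apply, smul_apply,
      ContinuousLinearMap.inr_apply]
  have e2 : (L.comp R).comp (ContinuousLinearMap.inr ℝ E E) =
      b • L.comp (ContinuousLinearMap.inl ℝ E E) + d • L.comp (ContinuousLinearMap.inr ℝ E E) := by
    ext x
    have : R (0, x) = b • (x, 0) + d • (0, x) := by simp [hR]
    simp only [ContinuousLinearMap.comp_apply, ContinuousLinearMap.inr_apply, this, map_add,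
      map_smul, add_apply, smul_apply,
      ContinuousLinearMap.inl_apply]
  rw [e1, e2]
  have h := dual_comb (L.comp (ContinuousLinearMap.inl ℝ E E))
    (L.comp (ContinuousLinearMap.inr ℝ E E)) a b c d h1 h2 h3
  have h' : ((‖a • L.comp (ContinuousLinearMap.inl ℝ E E) +
      c • L.comp (ContinuousLinearMap.inr ℝ E E)‖ ^ 2 +
      ‖b • L.comp (ContinuousLinearMap.inl ℝ E E) +
        d • L.comp (ContinuousLinearMap.inr ℝ E E)‖ ^ 2 : ℝ) : ℂ) =
      ((‖L.comp (ContinuousLinearMap.inl ℝ E E)‖ ^ 2 +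
        ‖L.comp (ContinuousLinearMap.inr ℝ E E)‖ ^ 2 : ℝ) : ℂ) := by rw [h]
  push_cast at h'
  linear_combination (-1 / 2 : ℂ) * h'

theorem orth_mp (a b c d : ℝ) (h1 : a ^ 2 + b ^ 2 = 1)
    (h2 : c ^ 2 + d ^ 2 = 1) (h3 : a * c + b * d = 0) :
    MeasurePreserving (fun p : E × E => (a • p.1 + b • p.2, c • p.1 + d • p.2))
      ((stdGaussian E).prod (stdGaussian E)) ((stdGaussian E).prod (stdGaussian E)) := by
  refine ⟨?_, map_orth a b c d h1 h2 h3⟩
  fun_prop

/-- a normalised combination of independent standard Gaussian vectors -/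
theorem map_comb {m : ℕ} (x : Fin m → ℝ) (hx : ∑ i, x i ^ 2 = 1) :
    (Measure.pi fun _ : Fin m => stdGaussian E).map (fun G => ∑ i, x i • G i) = stdGaussian E := by
  classical
  set A : (Fin m → E) →L[ℝ] E := ∑ i, x i • ContinuousLinearMap.proj i with hA
  have e : (fun G : Fin m → E => ∑ i, x i • G i) = A := by
    funext G
    simp [hA]
  rw [e]
  refine Measure.ext_of_charFunDual ?_
  ext L
  rw [charFunDual_map, charFunDual_pi]
  simp only [charFunDual_stdGaussian]
  rw [← Complex.exp_sum]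
  congr 1
  have e1 : ∀ i, (L.comp A).comp (ContinuousLinearMap.single ℝ (fun _ : Fin m => E) i) = x i • L := by
    intro i
    ext y
    have : A (Pi.single i y) = x i • y := by
      simp [hA, Finset.sum_eq_single i, Pi.single_apply]
    simp [this]
  simp only [e1, norm_smul, mul_pow, Real.norm_eq_abs]
  have e2 : ∀ i, ((|x i| : ℝ) : ℂ) ^ 2 = ((x i ^ 2 : ℝ) : ℂ) := by
    intro i
    rw [← Complex.ofReal_pow, sq_abs]
  have e3 : (∑ i, -(((|x i| * ‖L‖ : ℝ) : ℂ)) ^ 2 / 2) = -(((∑ i, x i ^ 2 : ℝ) : ℂ) * (‖L‖ : ℂ) ^ 2) / 2 := by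
    push_cast
    rw [Finset.sum_mul, ← Finset.sum_neg_distrib, Finset.sum_div]
    refine Finset.sum_congr rfl fun i _ => ?_
    rw [mul_pow, e2]
    push_cast
    ring
  have e4 := e3
  rw [hx] at e4
  push_cast at e4 ⊢
  rw [e4]
  ring

theorem integrable_normsq : Integrable (fun x : E => ‖x‖ ^ 2) (stdGaussian E) := by
  have h : MemLp (id : E → E) 2 (stdGaussian E) := IsGaussian.memLp_two_id
  exact (memLp_two_iff_integrable_sq_norm aestronglyMeasurable_id).1 h

theorem integrable_norm : Integrable (fun x : E => ‖x‖) (stdGaussian E) :=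
  (IsGaussian.integrable_id (μ := stdGaussian E)).norm

theorem integral_inner (u : E) : ∫ x, ⟪u, x⟫ ∂(stdGaussian E) = 0 :=
  integral_strongDual_stdGaussian (InnerProductSpace.toDual ℝ E u)

theorem integral_inner_sq (u : E) : ∫ x, ⟪u, x⟫ ^ 2 ∂(stdGaussian E) = ‖u‖ ^ 2 := by
  have h := variance_dual_stdGaussian (InnerProductSpace.toDual ℝ E u)
  rw [variance_eq_integral (by fun_prop)] at h
  have h0 : (∫ x, (InnerProductSpace.toDual ℝ E u) x ∂(stdGaussian E)) = 0 :=
    integral_strongDual_stdGaussian _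
  rw [h0] at h
  simpa using h

theorem integral_normsq : ∫ x, ‖x‖ ^ 2 ∂(stdGaussian E) = finrank ℝ E := by
  set b := stdOrthonormalBasis ℝ E
  have e : ∀ x : E, ‖x‖ ^ 2 = ∑ i, ⟪b i, x⟫ ^ 2 := fun x => (b.sum_sq_inner_right x).symm
  simp only [e]
  rw [integral_finsetSum]
  · simp only [integral_inner_sq]
    simp [b.orthonormal.1]
  · intro i _
    refine Integrable.mono' integrable_normsq (by fun_prop) (Filter.Eventually.of_forall fun x => ?_)
    rw [Real.norm_of_nonneg (sq_nonneg _)]
    have h1 := abs_real_inner_le_norm (b i) x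
    rw [b.orthonormal.1 i, one_mul] at h1
    rw [← sq_abs]
    gcongr

end Vale.Agent.P208.D257
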