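import Vale.Agent.P208.Bdl.B2
import Vale.Agent.P208.StmtDefs
import Vale.Agent.P208.H257.Dvor

/-!
# P208: doubling subsets of arbitrary infinite-dimensional normed spaces
-/

namespace Vale.Agent.P208.D257

open Module

/-- a map which is bi-Lipschitz on `X` with constants `s`, `2 s` preserves doubling -/
theorem doubling_image {E F : Type*} [PseudoMetricSpace E] [PseudoMetricSpace F] {l : ℕ}
    {X : Set E} (h : DoublingWith l X) (φ : E → F) (s : ℝ) (hs : 0 < s)
    (h1 : ∀ x y, s * dist x y ≤ dist (φ x) (φ y))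
    (h2 : ∀ x y, dist (φ x) (φ y) ≤ 2 * s * dist x y) : DoublingWith (l * l) (φ '' X) := by
  classical
  rintro _ ⟨x, hx, rfl⟩ r hr
  obtain ⟨T, hT1, hT2, hT3⟩ := h x hx (r / s) (div_pos hr hs)
  choose! S hS1 hS2 hS3 using fun z (hz : z ∈ T) => h z (hT2 z hz) (r / s / 2) (by positivity)
  refine ⟨T.biUnion fun z => (S z).image φ, ?_, ?_, ?_⟩
  · refine (Finset.card_biUnion_le).trans ?_
    refine (Finset.sum_le_sum fun z hz => Finset.card_image_le.trans (hS1 z hz)).trans ?_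
    rw [Finset.sum_const, smul_eq_mul]
    gcongr
  · intro w hw
    obtain ⟨z, hz, hw⟩ := Finset.mem_biUnion.1 hw
    obtain ⟨v, hv, rfl⟩ := Finset.mem_image.1 hw
    exact ⟨v, hS2 z hz v hv, rfl⟩
  · rintro _ ⟨y, hy, rfl⟩ hyr
    have h3 : dist y x ≤ r / s := by
      rw [le_div_iff₀ hs]
      have := h1 y x
      linarith
    obtain ⟨z, hz, hyz⟩ := hT3 y hy h3
    obtain ⟨v, hv, hyv⟩ := hS3 z hz y hy hyz
    refine ⟨φ v, Finset.mem_biUnion.2 ⟨z, hz, Finset.mem_image_of_mem _ hv⟩, ?_⟩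
    calc dist (φ y) (φ v) ≤ 2 * s * dist y v := h2 y v
      _ ≤ 2 * s * (r / s / 2 / 2) := by gcongr
      _ = r / 2 := by field_simp

/-- finite sets converging to `0`, together with `0`, form a compact set -/
theorem isCompact_pieces {Y : Type*} [PseudoMetricSpace Y] (o : Y) (P : ℕ → Set Y)
    (hP : ∀ j, (P j).Finite) {ρ : ℕ → ℝ} (hρ : Filter.Tendsto ρ Filter.atTop (nhds 0))
    (hb : ∀ j, ∀ x ∈ P j, dist x o ≤ ρ j) : IsCompact (insert o (⋃ j, P j)) := by
  classical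
  rw [isCompact_iff_ultrafilter_le_nhds]
  intro f hf
  by_cases h0 : (f : Filter Y) ≤ nhds o
  · exact ⟨o, Set.mem_insert _ _, h0⟩
  · -- some ball is not in `f`
    rw [(Metric.nhds_basis_ball).ge_iff] at h0
    push Not at h0
    obtain ⟨ε, hε, hεf⟩ := h0
    have h1 : (Metric.ball o ε)ᶜ ∈ f := Ultrafilter.compl_mem_iff_notMem.2 hεf
    have h2 : insert o (⋃ j, P j) ∩ (Metric.ball o ε)ᶜ ∈ f :=
      Filter.inter_mem (Filter.le_principal_iff.1 hf) h1
    have hev := (Metric.tendsto_atTop.1 hρ) ε hε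
    obtain ⟨J, hJ⟩ := hev
    have hfin : (insert o (⋃ j, P j) ∩ (Metric.ball o ε)ᶜ).Finite := by
      refine Set.Finite.subset ((Set.finite_lt_nat J).biUnion fun j _ => hP j) ?_
      rintro x ⟨hx, hxb⟩
      rcases hx with rfl | hx
      · exact absurd (Metric.mem_ball_self hε) hxb
      obtain ⟨j, hj⟩ := Set.mem_iUnion.1 hx
      refine Set.mem_biUnion (x := j) ?_ hj
      by_contra hJj
      have hJj' : J ≤ j := not_lt.1 hJj
      have h3 := hJ j hJj'
      rw [Real.dist_eq, sub_zero] at h3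
      refine hxb ?_
      rw [Metric.mem_ball]
      exact (hb j x hj).trans_lt ((le_abs_self _).trans_lt h3)
    obtain ⟨x, hx, hxf⟩ := Ultrafilter.eq_pure_of_finite_mem hfin h2
    refine ⟨x, hx.1, ?_⟩
    rw [hxf]
    exact pure_le_nhds x

/-- the finite bad sets of Euclidean spaces (with an absolute doubling constant) -/
theorem bad_finite (j : ℕ) : ∃ (m : ℕ) (X : Set (EuclideanSpace ℝ (Fin m))), X.Finite ∧
    X.Nonempty ∧ DoublingWith (69 * covC * (69 * covC)) X ∧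
      ¬ EmbedsWith (1 / (2 * ((j : ℝ) + 1))) X j := by
  obtain ⟨m, X, -, -, h3, h4⟩ := exists_bad_set j (1 / (2 * ((j : ℝ) + 1))) (by positivity)
    fun _ h0 h1 => badMovie j h0 h1
  have h5 : ∃ Y : Set (EuclideanSpace ℝ (Fin m)), Y ⊆ X ∧ Y.Finite ∧
      ¬ EmbedsWith (1 / (2 * ((j : ℝ) + 1))) Y j := by
    by_contra hcon
    push Not at hcon
    exact h4 (embedsWith_of_finite _ X j hcon)
  obtain ⟨Z, hZX, hZf, hZ⟩ := h5
  refine ⟨m, Z, hZf, ?_, h3.subset hZX, hZ⟩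
  by_contra hne
  rw [Set.not_nonempty_iff_eq_empty] at hne
  refine hZ ⟨fun _ => 0, fun x hx => ?_⟩
  rw [hne] at hx
  exact absurd hx (Set.notMem_empty x)

/-- the absolute doubling constant -/
def lam0 : ℕ := max (69 * covC * (69 * covC) * (69 * covC * (69 * covC))) 2

/-- transfer of non-embeddability -/
theorem not_embeds {Y : Type} [NormedAddCommGroup Y] [NormedSpace ℝ Y] {j k m : ℕ} {D : ℝ}
    (hkj : k ≤ j) (hDj : D ≤ (j : ℝ) + 1) (X : Set (EuclideanSpace ℝ (Fin m)))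
    (φ : EuclideanSpace ℝ (Fin m) → Y) {s : ℝ} (hs : 0 < s)
    (hφ1 : ∀ x y, s * dist x y ≤ dist (φ x) (φ y))
    (hφ2 : ∀ x y, dist (φ x) (φ y) ≤ 2 * s * dist x y)
    (hemb : ¬ EmbedsWith (1 / (2 * ((j : ℝ) + 1))) X j) (S : Set Y) (hmem : ∀ x ∈ X, φ x ∈ S) :
    ¬ Embeds S k D := by
  intro hk
  obtain ⟨f, a, ha, hf⟩ := hk
  apply hemb
  set ι : EuclideanSpace ℝ (Fin k) → EuclideanSpace ℝ (Fin j) :=
    fun v => WithLp.toLp 2 (fun i : Fin j => if hi : (i : ℕ) < k then v ⟨i, hi⟩ else 0) with hι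
  have hιd : ∀ v w, dist (ι v) (ι w) = dist v w := by
    intro v w
    rw [EuclideanSpace.dist_eq, EuclideanSpace.dist_eq]
    congr 1
    obtain ⟨t, rfl⟩ := Nat.exists_eq_add_of_le hkj
    rw [Fin.sum_univ_add]
    simp only [hι, Fin.val_castAdd, Fin.is_lt, ↓reduceDIte, Fin.eta, Fin.val_natAdd, add_lt_iff_neg_left, not_lt_zero, dist_self, ne_eq, OfNat.ofNat_ne_zero, not_false_eq_true, zero_pow, Finset.sum_const_zero, add_zero]
  set c : ℝ := 1 / (((j : ℝ) + 1) * a * (2 * s)) with hc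
  have hj1 : (0 : ℝ) < (j : ℝ) + 1 := by positivity
  have hcpos : 0 < c := by positivity
  refine ⟨fun x => c • ι (f (φ x)), ?_⟩
  intro x hx y hy
  rw [dist_smul₀, Real.norm_of_nonneg hcpos.le, hιd]
  obtain ⟨h1, h2⟩ := hf (φ x) (hmem x hx) (φ y) (hmem y hy)
  have hd1 := hφ1 x y
  have hd2 := hφ2 x y
  have hxy : 0 ≤ dist x y := dist_nonneg
  have hφxy : 0 ≤ dist (φ x) (φ y) := dist_nonneg
  constructor
  · calc 1 / (2 * ((j : ℝ) + 1)) * dist x y = c * (a * (s * dist x y)) := by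
          rw [hc]; field_simp
      _ ≤ c * (a * dist (φ x) (φ y)) := by gcongr
      _ ≤ _ := mul_le_mul_of_nonneg_left h1 hcpos.le
  · calc c * dist (f (φ x)) (f (φ y)) ≤ c * (D * a * dist (φ x) (φ y)) :=
          mul_le_mul_of_nonneg_left h2 hcpos.le
      _ ≤ c * (((j : ℝ) + 1) * a * dist (φ x) (φ y)) := by gcongr
      _ ≤ c * (((j : ℝ) + 1) * a * (2 * s * dist x y)) := by gcongr
      _ = dist x y := by rw [hc]; field_simp

/-- **every infinite-dimensional normed space contains a countable compact doubling set without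
bi-Lipschitz embeddings into finite-dimensional spaces** -/
theorem exists_compact {Y : Type} [NormedAddCommGroup Y] [NormedSpace ℝ Y]
    (hY : ¬ FiniteDimensional ℝ Y) : ∃ X : Set Y, IsCompact X ∧ X.Countable ∧
      DoublingWith (lam0 * lam0) X ∧ ∀ (k : ℕ) (D : ℝ), ¬ Embeds X k D := by
  classical
  -- a unit vector
  have hne : ∃ e0 : Y, ‖e0‖ = 1 := by
    obtain ⟨A, hA⟩ := dvoretzky hY 1 one_pos
    set v : EuclideanSpace ℝ (Fin 1) := EuclideanSpace.single 0 1 with hv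
    have h1 : ‖v‖ = 1 := by simp [hv]
    have h2 : 0 < ‖A v‖ := by
      have := (hA v).1
      linarith
    refine ⟨‖A v‖⁻¹ • A v, ?_⟩
    rw [norm_smul, norm_inv, norm_norm, inv_mul_cancel₀ h2.ne']
  obtain ⟨e0, he0n⟩ := hne
  have h' : ∀ j : ℕ, ∃ (m : ℕ) (X : Set (EuclideanSpace ℝ (Fin m))) (s : ℝ)
      (x₀ : EuclideanSpace ℝ (Fin m)), x₀ ∈ X ∧ 0 < s ∧ X.Finite ∧
      (∀ x ∈ X, 2 * s * dist x x₀ ≤ 1 / 50 * (1 / 8 : ℝ) ^ j) ∧
      DoublingWith (69 * covC * (69 * covC)) X ∧ ¬ EmbedsWith (1 / (2 * ((j : ℝ) + 1))) X j := by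
    intro j
    obtain ⟨m, X, h1, ⟨x₀, hx₀⟩, h3, h4⟩ := bad_finite j
    obtain ⟨R, hR⟩ := (Metric.isBounded_iff_subset_closedBall x₀).1 h1.isBounded
    have hpos : (0 : ℝ) < 1 / 50 * (1 / 8 : ℝ) ^ j := by positivity
    refine ⟨m, X, (1 / 50 * (1 / 8 : ℝ) ^ j) / (2 * (|R| + 1)), x₀, hx₀, by positivity, h1, ?_,
      h3, h4⟩
    intro x hx
    have h5 := Metric.mem_closedBall.1 (hR hx)
    have h6 : dist x x₀ ≤ |R| + 1 := by linarith only [h5, le_abs_self R]
    have h7 : 2 * ((1 / 50 * (1 / 8 : ℝ) ^ j) / (2 * (|R| + 1))) * dist x x₀ =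
        (1 / 50 * (1 / 8 : ℝ) ^ j) * dist x x₀ / (|R| + 1) := by
      field_simp
    rw [h7, div_le_iff₀ (by positivity)]
    exact mul_le_mul_of_nonneg_left h6 hpos.le
  choose m X s x₀ hx₀ hs hfin hbd hdoub hemb using h'
  choose A hA using fun j => dvoretzky hY (m j) one_pos
  set p : ℕ → Y := fun j => ((1 / 8 : ℝ) ^ j) • e0 with hp
  set φ : ∀ j, EuclideanSpace ℝ (Fin (m j)) → Y :=
    fun j x => p j + s j • (A j x - A j (x₀ j)) with hφ
  have hφs : ∀ j x y, dist (φ j x) (φ j y) = s j * ‖A j (x - y)‖ := by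
    intro j x y
    have : φ j x - φ j y = s j • (A j (x - y)) := by
      simp only [hφ]
      rw [add_sub_add_left_eq_sub, ← smul_sub, map_sub]
      congr 1
      abel
    rw [dist_eq_norm, this, norm_smul, Real.norm_of_nonneg (hs j).le]
  have hφ1 : ∀ j x y, s j * dist x y ≤ dist (φ j x) (φ j y) := by
    intro j x y
    rw [hφs, dist_eq_norm]
    exact mul_le_mul_of_nonneg_left (hA j (x - y)).1 (hs j).le
  have hφ2 : ∀ j x y, dist (φ j x) (φ j y) ≤ 2 * s j * dist x y := by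
    intro j x y
    rw [hφs, dist_eq_norm]
    have h1 := mul_le_mul_of_nonneg_left (hA j (x - y)).2 (hs j).le
    have h2 : s j * ((1 + 1) * ‖x - y‖) = 2 * s j * ‖x - y‖ := by ring
    linarith
  have hφp : ∀ j x, dist (φ j x) (p j) ≤ 2 * s j * dist x (x₀ j) := by
    intro j x
    have h1 : p j = φ j (x₀ j) := by simp [hφ]
    conv_lhs => rw [h1]
    exact hφ2 j x (x₀ j)
  have hpd : ∀ i j, dist (p i) (p j) = |(1 / 8 : ℝ) ^ i - (1 / 8) ^ j| := by
    intro i j
    rw [dist_eq_norm]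
    simp only [hp]
    rw [← sub_smul, norm_smul, he0n, mul_one, Real.norm_eq_abs]
  have hpo : ∀ j, dist (p j) 0 = (1 / 8 : ℝ) ^ j := by
    intro j
    rw [dist_zero_right]
    simp only [hp]
    rw [norm_smul, he0n, mul_one, Real.norm_of_nonneg (by positivity)]
  have hP : ∀ j, ∀ x ∈ φ j '' X j, dist x (p j) ≤ 1 / 50 * (1 / 8 : ℝ) ^ j := by
    rintro j _ ⟨x, hx, rfl⟩
    exact (hφp j x).trans (hbd j x hx)
  have hD : DoublingWith lam0 (⋃ j, φ j '' X j) :=
    glue_doubling_shrink _ (fun j => φ j '' X j) p hP hpd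
      (fun j => doubling_image (hdoub j) (φ j) (s j) (hs j) (hφ1 j) (hφ2 j))
  -- the closure adds only the origin
  have hpow : Filter.Tendsto (fun j : ℕ => 2 * (1 / 8 : ℝ) ^ j) Filter.atTop (nhds 0) := by
    have := (tendsto_pow_atTop_nhds_zero_of_lt_one (r := (1 / 8 : ℝ)) (by norm_num)
      (by norm_num)).const_mul 2
    simpa using this
  have hbo : ∀ j, ∀ x ∈ φ j '' X j, dist x 0 ≤ 2 * (1 / 8 : ℝ) ^ j := by
    intro j x hx
    have h1 := hP j x hx
    have h2 := hpo j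
    have h3 := dist_triangle x (p j) 0
    have h4 : (0 : ℝ) < (1 / 8 : ℝ) ^ j := by positivity
    linarith
  have hcomp : IsCompact (insert (0 : Y) (⋃ j, φ j '' X j)) :=
    isCompact_pieces 0 _ (fun j => (hfin j).image _) hpow hbo
  have hcl : closure (⋃ j, φ j '' X j) = insert (0 : Y) (⋃ j, φ j '' X j) := by
    refine subset_antisymm (closure_minimal (Set.subset_insert _ _) hcomp.isClosed) ?_
    refine Set.insert_subset ?_ subset_closure
    rw [Metric.mem_closure_iff]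
    intro ε hε
    obtain ⟨J, hJ⟩ := (Metric.tendsto_atTop.1 hpow) ε hε
    refine ⟨φ J (x₀ J), Set.mem_iUnion.2 ⟨J, _, hx₀ J, rfl⟩, ?_⟩
    have h1 := hbo J _ ⟨_, hx₀ J, rfl⟩
    have h2 := hJ J le_rfl
    rw [Real.dist_eq, sub_zero] at h2
    rw [dist_comm]
    exact h1.trans_lt ((le_abs_self _).trans_lt h2)
  refine ⟨closure (⋃ j, φ j '' X j), ?_, ?_, hD.closure, ?_⟩
  · rw [hcl]; exact hcomp
  · rw [hcl]
    exact (Set.countable_iUnion fun j => ((hfin j).image _).countable).insert _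
  · intro k D
    obtain ⟨j, hj⟩ := exists_nat_ge (max (k : ℝ) |D|)
    have hkj : k ≤ j := by exact_mod_cast (le_max_left _ _).trans hj
    have hDj : D ≤ (j : ℝ) + 1 := by
      linarith only [(le_abs_self D).trans ((le_max_right _ _).trans hj)]
    exact not_embeds hkj hDj (X j) (φ j) (hs j) (hφ1 j) (hφ2 j) (hemb j) _
      fun x hx => subset_closure (Set.mem_iUnion.2 ⟨j, x, hx, rfl⟩)

/-- finite sets -/
theorem exists_finite {Y : Type} [NormedAddCommGroup Y] [NormedSpace ℝ Y]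
    (hY : ¬ FiniteDimensional ℝ Y) (k : ℕ) (D : ℝ) : ∃ X : Set Y, X.Finite ∧
      DoublingWith lam0 X ∧ ¬ Embeds X k D := by
  obtain ⟨j, hj⟩ := exists_nat_ge (max (k : ℝ) |D|)
  have hkj : k ≤ j := by exact_mod_cast (le_max_left _ _).trans hj
  have hDj : D ≤ (j : ℝ) + 1 := by
    linarith only [(le_abs_self D).trans ((le_max_right _ _).trans hj)]
  obtain ⟨m, X, h1, -, h3, h4⟩ := bad_finite j
  obtain ⟨A, hA⟩ := dvoretzky hY m one_pos
  have hd : ∀ x y, dist (A x) (A y) = ‖A (x - y)‖ := by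
    intro x y
    rw [dist_eq_norm, map_sub]
  have hA1 : ∀ x y, 1 * dist x y ≤ dist (A x) (A y) := by
    intro x y
    rw [hd, dist_eq_norm, one_mul]
    exact (hA _).1
  have hA2 : ∀ x y, dist (A x) (A y) ≤ 2 * 1 * dist x y := by
    intro x y
    rw [hd, dist_eq_norm]
    have := (hA (x - y)).2
    linarith
  refine ⟨A '' X, h1.image _, ?_, ?_⟩
  · exact (doubling_image h3 A 1 one_pos hA1 hA2).mono (le_max_left _ _)
  · exact not_embeds hkj hDj X A one_pos hA1 hA2 h4 _ fun x hx => ⟨x, hx, rfl⟩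

end Vale.Agent.P208.D257
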