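import Vale.Agent.P208.H257.Glue
import Mathlib.Analysis.InnerProductSpace.EuclideanDist

/-!
# P208: the dichotomy
-/

namespace Vale.Agent.P208.D257

open Module

/-- every subset of a finite-dimensional normed space embeds -/
theorem embeds_of_finiteDimensional {Y : Type} [NormedAddCommGroup Y] [NormedSpace ℝ Y]
    [FiniteDimensional ℝ Y] (X : Set Y) : ∃ (k : ℕ) (D : ℝ), Embeds X k D := by
  set f : Y ≃L[ℝ] EuclideanSpace ℝ (Fin (finrank ℝ Y)) := toEuclidean with hf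
  set L : Y →L[ℝ] EuclideanSpace ℝ (Fin (finrank ℝ Y)) := f.toContinuousLinearMap with hL
  set G : EuclideanSpace ℝ (Fin (finrank ℝ Y)) →L[ℝ] Y := f.symm.toContinuousLinearMap with hG
  have hb : 0 < ‖G‖ + 1 := by positivity
  refine ⟨finrank ℝ Y, ‖L‖ * (‖G‖ + 1), f, (‖G‖ + 1)⁻¹, by positivity, fun x _ y _ => ?_⟩
  have h1 : dist (f x) (f y) = ‖f (x - y)‖ := by rw [dist_eq_norm, map_sub]
  rw [h1, dist_eq_norm]
  constructor
  · have h2 : ‖x - y‖ ≤ ‖G‖ * ‖f (x - y)‖ := by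
      have := G.le_opNorm (f (x - y))
      have h3 : G (f (x - y)) = x - y := f.symm_apply_apply _
      rwa [h3] at this
    rw [← div_eq_inv_mul, div_le_iff₀ hb]
    nlinarith [norm_nonneg (f (x - y))]
  · have h2 : ‖f (x - y)‖ ≤ ‖L‖ * ‖x - y‖ := L.le_opNorm (x - y)
    have h3 : ‖L‖ * (‖G‖ + 1) * (‖G‖ + 1)⁻¹ * ‖x - y‖ = ‖L‖ * ‖x - y‖ := by
      field_simp
    rw [h3]
    exact h2

theorem not_finiteDimensional_l2 : ¬ FiniteDimensional ℝ (lp (fun _ : ℕ => ℝ) 2) := by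
  intro h
  have h1 : LinearIndependent ℝ (fun i : ℕ => (lp.single 2 i (1 : ℝ) : lp (fun _ : ℕ => ℝ) 2)) :=
    orthonormal_single.linearIndependent
  exact (h1.finite_of_isNoetherian (R := ℝ)).false

/-- the absolute doubling constant of the main theorem -/
def lamA : ℕ := lam0 * lam0 * (lam0 * lam0)

theorem lam0_le : lam0 * lam0 ≤ lamA := by
  have h : 1 ≤ lam0 * lam0 := Nat.one_le_iff_ne_zero.2 (by
    have : 2 ≤ lam0 := le_max_right _ _
    positivity)
  unfold lamA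
  nlinarith

theorem doubling_mono {E : Type} [MetricSpace E] {l l' : ℕ} {X : Set E} (h : Doubling l X)
    (hl : l ≤ l') : Doubling l' X := by
  intro x hx r hr
  obtain ⟨T, h1, h2, h3⟩ := h x hx r hr
  exact ⟨T, h1.trans hl, h2, h3⟩

theorem main_inf {Y : Type} [NormedAddCommGroup Y] [NormedSpace ℝ Y]
    (hY : ¬ FiniteDimensional ℝ Y) :
    (∃ X : Set Y, IsCompact X ∧ X.Countable ∧ Doubling lamA X ∧
      ∀ (k : ℕ) (D : ℝ), ¬ Embeds X k D) ∧
    ∀ (k : ℕ) (D : ℝ), ∃ X : Set Y, X.Finite ∧ Doubling lamA X ∧ ¬ Embeds X k D := by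
  constructor
  · obtain ⟨X, h1, h2, h3, h4⟩ := exists_compact hY
    exact ⟨X, h1, h2, h3.strict, h4⟩
  · intro k D
    obtain ⟨X, h1, h2, h3⟩ := exists_finite hY k D
    have h4 : Doubling (lam0 * lam0) X := h2.strict
    exact ⟨X, h1, doubling_mono h4 lam0_le, h3⟩

theorem main_iff (Y : Type) [NormedAddCommGroup Y] [NormedSpace ℝ Y] :
    FiniteDimensional ℝ Y ↔
      ∀ (X : Set Y) (lam : ℕ), Doubling lam X → ∃ (k : ℕ) (D : ℝ), Embeds X k D := by
  constructor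
  · intro h X lam _
    exact embeds_of_finiteDimensional X
  · intro h
    by_contra hY
    obtain ⟨⟨X, -, -, h3, h4⟩, -⟩ := main_inf hY
    obtain ⟨k, D, hkD⟩ := h X _ h3
    exact h4 k D hkD

end Vale.Agent.P208.D257
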