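import Vale.Agent.P208.H257.Conc
import Vale.Agent.P208.H257.DR
import Mathlib.Analysis.Normed.Module.HahnBanach

/-!
# P208: the mean of a norm in Dvoretzky-Rogers position tends to infinity
-/

namespace Vale.Agent.P208.D257

open MeasureTheory ProbabilityTheory Module
open scoped RealInnerProductSpace

/-- norms below the Euclidean norm have subgradients of norm at most one -/
theorem sub1_norm {E : Type*} [NormedAddCommGroup E] [InnerProductSpace ℝ E]
    [FiniteDimensional ℝ E] {Y : Type*} [NormedAddCommGroup Y] [NormedSpace ℝ Y]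
    (T : E →ₗ[ℝ] Y) (hT : ∀ v, ‖T v‖ ≤ ‖v‖) : Sub1 (fun x => ‖T x‖) := by
  intro x
  obtain ⟨g, hg1, hg2⟩ := exists_dual_vector'' ℝ (T x)
  set L : StrongDual ℝ E := g.comp (LinearMap.toContinuousLinearMap T) with hL
  have hLv : ∀ v, L v = g (T v) := fun v => rfl
  refine ⟨(InnerProductSpace.toDual ℝ E).symm L, ?_, fun y => ?_⟩
  · rw [LinearIsometryEquiv.norm_map]
    refine ContinuousLinearMap.opNorm_le_bound _ zero_le_one fun v => ?_
    rw [hLv]
    calc ‖g (T v)‖ ≤ ‖g‖ * ‖T v‖ := g.le_opNorm _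
      _ ≤ 1 * ‖v‖ := by gcongr; exact hT v
  · rw [InnerProductSpace.toDual_symm_apply, hLv, map_sub, map_sub]
    have h1 : g (T x) = ‖T x‖ := by simpa using hg2
    have h2 : g (T y) ≤ ‖T y‖ := by
      calc g (T y) ≤ ‖g (T y)‖ := le_abs_self _
        _ ≤ ‖g‖ * ‖T y‖ := g.le_opNorm _
        _ ≤ 1 * ‖T y‖ := by gcongr
        _ = _ := one_mul _
    show ‖T x‖ + (g (T y) - g (T x)) ≤ ‖T y‖
    rw [h1]
    linarith

/-- change of sign of all coordinates but one -/
noncomputable def flip (N : ℕ) (i : Fin N) :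
    EuclideanSpace ℝ (Fin N) ≃ₗᵢ[ℝ] EuclideanSpace ℝ (Fin N) :=
  LinearIsometryEquiv.piLpCongrRight 2 fun j =>
    if j = i then LinearIsometryEquiv.refl ℝ ℝ else LinearIsometryEquiv.neg ℝ

theorem flip_apply {N : ℕ} (i j : Fin N) (x : EuclideanSpace ℝ (Fin N)) :
    flip N i x j = if j = i then x j else -x j := by
  unfold flip
  rw [LinearIsometryEquiv.piLpCongrRight_apply]
  show (if j = i then LinearIsometryEquiv.refl ℝ ℝ else LinearIsometryEquiv.neg ℝ) (x j) = _
  split_ifs <;> simp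

/-- first coordinate above `t` is the `i`-th -/
def Afst (N : ℕ) (t : ℝ) (i : Fin N) : Set (EuclideanSpace ℝ (Fin N)) :=
  {x | t < |x i| ∧ ∀ j < i, |x j| ≤ t}

theorem measurable_Afst (N : ℕ) (t : ℝ) (i : Fin N) : MeasurableSet (Afst N t i) := by
  have : Afst N t i = {x | t < |x i|} ∩ ⋂ j : Fin N, ⋂ _ : j < i, {x | |x j| ≤ t} := by
    ext x
    simp [Afst]
  rw [this]
  refine MeasurableSet.inter ?_ (MeasurableSet.iInter fun j => MeasurableSet.iInter fun _ => ?_)
  · exact measurableSet_lt measurable_const (Continuous.measurable (by fun_prop))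
  · exact measurableSet_le (Continuous.measurable (by fun_prop)) measurable_const

theorem disjoint_Afst (N : ℕ) (t : ℝ) : Pairwise (Function.onFun Disjoint (Afst N t)) := by
  have key : ∀ i j : Fin N, i < j → Disjoint (Afst N t i) (Afst N t j) := by
    intro i j hij
    rw [Set.disjoint_left]
    intro x hx hx'
    exact absurd (hx'.2 i hij) (not_le.2 hx.1)
  intro i j hij
  rcases lt_or_gt_of_ne hij with h | h
  · exact key i j h
  · exact (key j i h).symm

theorem iUnion_Afst (N : ℕ) (t : ℝ) :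
    (⋃ i, Afst N t i) = {x : EuclideanSpace ℝ (Fin N) | ∀ i, |x i| ≤ t}ᶜ := by
  ext x
  simp only [Set.mem_iUnion, Set.mem_compl_iff, Set.mem_setOf_eq, not_forall, not_le]
  constructor
  · rintro ⟨i, hi⟩
    exact ⟨i, hi.1⟩
  · rintro ⟨i, hi⟩
    classical
    obtain ⟨j, hj, hmin⟩ := (Finset.univ.filter fun j : Fin N => t < |x j|).exists_minimal
      ⟨i, by simpa using hi⟩
    refine ⟨j, by simpa using hj, fun k hk => ?_⟩
    by_contra h
    push Not at h
    exact absurd (hmin (by simpa using h) hk.le) (not_le.2 hk)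

theorem flip_preimage {N : ℕ} (t : ℝ) (i : Fin N) : flip N i ⁻¹' Afst N t i = Afst N t i := by
  ext x
  have h : ∀ j, |flip N i x j| = |x j| := by
    intro j
    rw [flip_apply]
    split_ifs
    · rfl
    · exact abs_neg _
  simp only [Set.mem_preimage, Afst, Set.mem_setOf_eq, h]

theorem add_flip {N : ℕ} (i : Fin N) (x : EuclideanSpace ℝ (Fin N)) :
    x + flip N i x = (2 * x i) • EuclideanSpace.single i (1 : ℝ) := by
  ext j
  rw [PiLp.add_apply, flip_apply, PiLp.smul_apply, EuclideanSpace.single_apply]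
  split_ifs with h
  · subst h; simp; ring
  · simp

theorem mean_ge {N : ℕ} {Y : Type*} [NormedAddCommGroup Y] [NormedSpace ℝ Y]
    (T : EuclideanSpace ℝ (Fin N) →ₗ[ℝ] Y) (hT : ∀ v, ‖T v‖ ≤ ‖v‖)
    (hT2 : ∀ i, 1 / 2 ≤ ‖T (EuclideanSpace.single i 1)‖) {t : ℝ} (ht : 0 ≤ t) :
    t / 2 * (stdGaussian (EuclideanSpace ℝ (Fin N))).real
      {x : EuclideanSpace ℝ (Fin N) | ∀ i, |x i| ≤ t}ᶜ ≤
      ∫ x, ‖T x‖ ∂(stdGaussian (EuclideanSpace ℝ (Fin N))) := by
  set μ := stdGaussian (EuclideanSpace ℝ (Fin N)) with hμ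
  have hS := sub1_norm T hT
  have hi : Integrable (fun x => ‖T x‖) μ := hS.memLp.integrable one_le_two
  have hmp : ∀ i, MeasurePreserving (flip N i) μ μ := fun i =>
    ⟨(flip N i).continuous.measurable, stdGaussian_map (flip N i)⟩
  have hemb : ∀ i, MeasurableEmbedding (flip N i) := fun i =>
    (flip N i).toHomeomorph.measurableEmbedding
  have key : ∀ i, t / 2 * μ.real (Afst N t i) ≤ ∫ x in Afst N t i, ‖T x‖ ∂μ := by
    intro i
    have e1 : ∫ x in Afst N t i, ‖T (flip N i x)‖ ∂μ = ∫ x in Afst N t i, ‖T x‖ ∂μ := by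
      have := (hmp i).setIntegral_preimage_emb (hemb i) (fun x => ‖T x‖) (Afst N t i)
      rwa [flip_preimage] at this
    have i2 : Integrable (fun x => ‖T (flip N i x)‖) μ :=
      (hmp i).integrable_comp_of_integrable hi
    have e2 : t * μ.real (Afst N t i) ≤ ∫ x in Afst N t i, (‖T x‖ + ‖T (flip N i x)‖) ∂μ := by
      have h1 : ∫ _ in Afst N t i, t ∂μ = t * μ.real (Afst N t i) := by
        rw [setIntegral_const, smul_eq_mul, mul_comm]
      rw [← h1]
      refine setIntegral_mono_on (integrable_const _).integrableOn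
        (hi.add i2).integrableOn (measurable_Afst N t i) fun x hx => ?_
      have h2 : ‖T (x + flip N i x)‖ ≤ ‖T x‖ + ‖T (flip N i x)‖ := by
        rw [map_add]; exact norm_add_le _ _
      rw [add_flip, map_smul, norm_smul, norm_mul, Real.norm_two, Real.norm_eq_abs] at h2
      have h3 := hT2 i
      have h4 := hx.1
      nlinarith [abs_nonneg (x i)]
    rw [integral_add hi.integrableOn i2.integrableOn, e1] at e2
    linarith
  have h1 : ∫ x in ⋃ i, Afst N t i, ‖T x‖ ∂μ = ∑ i, ∫ x in Afst N t i, ‖T x‖ ∂μ :=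
    integral_iUnion_fintype (measurable_Afst N t) (disjoint_Afst N t) fun i => hi.integrableOn
  have h2 : μ.real (⋃ i, Afst N t i) = ∑ i, μ.real (Afst N t i) := by
    have := integral_iUnion_fintype (μ := μ) (f := fun _ : EuclideanSpace ℝ (Fin N) => (1 : ℝ))
      (measurable_Afst N t) (disjoint_Afst N t) fun i => (integrable_const _).integrableOn
    simpa using this
  have h3 : ∫ x in ⋃ i, Afst N t i, ‖T x‖ ∂μ ≤ ∫ x, ‖T x‖ ∂μ :=
    setIntegral_le_integral hi (Filter.Eventually.of_forall fun x => norm_nonneg _)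
  rw [← iUnion_Afst, h2, Finset.mul_sum]
  refine (Finset.sum_le_sum fun i _ => key i).trans ?_
  rw [← h1]
  exact h3

theorem gauss_Icc_lt (t : ℝ) : (gaussianReal 0 1).real (Set.Icc (-t) t) < 1 := by
  have h1 : (gaussianReal 0 1).real (Set.Icc (-t) t) + (gaussianReal 0 1).real (Set.Icc (-t) t)ᶜ = 1 := by
    rw [measureReal_compl measurableSet_Icc]
    simp
  have h2 : 0 < (gaussianReal 0 1).real (Set.Icc (-t) t)ᶜ := by
    rw [measureReal_def]
    refine ENNReal.toReal_pos ?_ (measure_ne_top _ _)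
    intro h0
    have h3 := gaussianReal_absolutelyContinuous' 0 (v := 1) one_ne_zero h0
    have h4 : Set.Ioi t ⊆ (Set.Icc (-t) t)ᶜ := fun x hx hx' => absurd hx'.2 (not_le.2 hx)
    have h5 := measure_mono_null h4 h3
    rw [Real.volume_Ioi] at h5
    exact absurd h5 (by simp)
  linarith

theorem gauss_cube (N : ℕ) (t : ℝ) : (stdGaussian (EuclideanSpace ℝ (Fin N))).real
    {x : EuclideanSpace ℝ (Fin N) | ∀ i, |x i| ≤ t} =
      (gaussianReal 0 1).real (Set.Icc (-t) t) ^ N := by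
  rw [← map_pi_eq_stdGaussian, measureReal_def, Measure.map_apply (by fun_prop)]
  · have : (WithLp.toLp 2 : (Fin N → ℝ) → EuclideanSpace ℝ (Fin N)) ⁻¹'
        {x : EuclideanSpace ℝ (Fin N) | ∀ i, |x i| ≤ t} = Set.pi Set.univ fun _ => Set.Icc (-t) t := by
      ext x
      simp only [Set.mem_preimage, Set.mem_setOf_eq, Set.mem_pi, Set.mem_univ, forall_const,
        Set.mem_Icc, abs_le]
    rw [this, Measure.pi_pi]
    simp [measureReal_def]
  · have : {x : EuclideanSpace ℝ (Fin N) | ∀ i, |x i| ≤ t} = ⋂ i, {x | |x i| ≤ t} := by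
      ext x; simp
    rw [this]
    exact MeasurableSet.iInter fun i =>
      measurableSet_le (Continuous.measurable (by fun_prop)) measurable_const

/-- **the mean tends to infinity** -/
theorem exists_mean_ge (t : ℝ) : ∃ N : ℕ, ∀ {Y : Type} [NormedAddCommGroup Y] [NormedSpace ℝ Y]
    (T : EuclideanSpace ℝ (Fin N) →ₗ[ℝ] Y) (_ : ∀ v, ‖T v‖ ≤ ‖v‖)
    (_ : ∀ i, 1 / 2 ≤ ‖T (EuclideanSpace.single i 1)‖),
    t ≤ ∫ x, ‖T x‖ ∂(stdGaussian (EuclideanSpace ℝ (Fin N))) := by
  set s : ℝ := 4 * |t| with hs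
  have hs0 : 0 ≤ s := by positivity
  obtain ⟨N, hN⟩ := exists_pow_lt_of_lt_one (show (0 : ℝ) < 1 / 2 by norm_num) (gauss_Icc_lt s)
  refine ⟨N, fun T hT hT2 => ?_⟩
  have h1 := mean_ge T hT hT2 hs0
  have hm : MeasurableSet {x : EuclideanSpace ℝ (Fin N) | ∀ i, |x i| ≤ s} := by
    have : {x : EuclideanSpace ℝ (Fin N) | ∀ i, |x i| ≤ s} = ⋂ i, {x | |x i| ≤ s} := by
      ext x; simp
    rw [this]
    exact MeasurableSet.iInter fun i =>
      measurableSet_le (Continuous.measurable (by fun_prop)) measurable_const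
  have h2 : 1 / 2 ≤ (stdGaussian (EuclideanSpace ℝ (Fin N))).real
      {x : EuclideanSpace ℝ (Fin N) | ∀ i, |x i| ≤ s}ᶜ := by
    rw [measureReal_compl hm, gauss_cube]
    rw [probReal_univ]
    linarith
  have h3 : t ≤ |t| := le_abs_self t
  have h4 : s / 2 * (1 / 2) ≤ s / 2 * (stdGaussian (EuclideanSpace ℝ (Fin N))).real
      {x : EuclideanSpace ℝ (Fin N) | ∀ i, |x i| ≤ s}ᶜ := by gcongr
  linarith

end Vale.Agent.P208.D257
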